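import Vale.Agent.P211.Cert.Interior.Charts

/-!
P211, the interior family: lines above the curve from polynomials in Bernstein form.
-/

namespace Vale.Agent.P211.Cert.Interior

open Chart

noncomputable section

/-- A polynomial in Bernstein form, the binomials inside the coefficients. -/
def bsum : List ℚ → ℝ → ℝ → ℝ
  | [], _, _ => 0
  | b :: l, t, u => b * u ^ l.length + t * bsum l t u

lemma bsum_nonneg {t u : ℝ} (ht : 0 ≤ t) (hu : 0 ≤ u) :
    ∀ {l : List ℚ}, (∀ b ∈ l, 0 ≤ b) → 0 ≤ bsum l t u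
  | [], _ => le_rfl
  | b :: l, h => by
    have hb : (0 : ℝ) ≤ b := by exact_mod_cast h b List.mem_cons_self
    have := bsum_nonneg ht hu fun c hc => h c (List.mem_cons_of_mem _ hc)
    rw [bsum]
    positivity

/-- A function which has such a form on an interval is nonnegative there. -/
lemma nonneg_on {P : ℝ → ℝ} (l : List ℚ) (lo hi : ℚ) (hl : ∀ b ∈ l, 0 ≤ b) (h : lo < hi)
    (e : ∀ t : ℝ, P (lo + (hi - lo) * t) = bsum l t (1 - t)) (r : ℝ) (ha : lo ≤ r) (hb : r ≤ hi) :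
    0 ≤ P r := by
  have hd : (0 : ℝ) < hi - lo := by
    have : (lo : ℝ) < hi := by exact_mod_cast h
    linarith
  have ht1 : (r - lo) / (hi - lo) ≤ 1 := (div_le_one hd).2 (by linarith)
  have := bsum_nonneg (div_nonneg (by linarith : (0 : ℝ) ≤ r - lo) hd.le)
    (by linarith : 0 ≤ 1 - (r - lo) / (hi - lo)) hl
  rwa [← e, mul_div_cancel₀ _ hd.ne', add_sub_cancel] at this

/-- Two halves of an interval. -/
lemma nonneg_split {P : ℝ → ℝ} {lo hi : ℚ} (mid : ℚ)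
    (h1 : ∀ r : ℝ, lo ≤ r → r ≤ mid → 0 ≤ P r) (h2 : ∀ r : ℝ, mid ≤ r → r ≤ hi → 0 ≤ P r) (r : ℝ)
    (ha : lo ≤ r) (hb : r ≤ hi) : 0 ≤ P r :=
  (le_total r mid).elim (h1 r ha) fun h => h2 r h hb

/-- Four times the cubes less two, over `r²`. -/
def Seg.cubeP (S : Seg) (r : ℝ) : ℝ :=
  3 * (2 - r ^ 2) * (S.c0 + S.c1 * r) ^ 2 - (12 - 6 * r ^ 2 + r ^ 4)

/-- The line above the switch, times `r`. -/
def Seg.switchP (S : Seg) (r : ℝ) : ℝ := S.c + r * (S.c0 + S.c1 * r) - (1 / 5 + r ^ 2)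

/-- The line above the curve of the cubes covers the segment. -/
theorem Seg.covers_of_cube (S : Seg) (ha0 : 0 ≤ S.a) (h0 : 0 ≤ S.c0 + S.c1 * S.a)
    (h1 : 0 ≤ S.c0 + S.c1 * S.b) (h2 : S.c = 0)
    (hc : ∀ r : ℝ, S.a ≤ r → r ≤ S.b → 0 ≤ S.cubeP r) : S.Covers :=
  fun f g r ha hb hs hg _ hf hq => by
    have hP := hc r ha hb
    have hr : 0 ≤ r := le_trans (by exact_mod_cast ha0) ha
    have hL : 0 ≤ (S.c0 : ℝ) + S.c1 * r := by
      have h0' : (0 : ℝ) ≤ S.c0 + S.c1 * S.a := by exact_mod_cast h0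
      have h1' : (0 : ℝ) ≤ S.c0 + S.c1 * S.b := by exact_mod_cast h1
      rcases le_total 0 (S.c1 : ℝ) with h | h
      · linarith [mul_le_mul_of_nonneg_left ha h]
      · linarith [mul_le_mul_of_nonpos_left hb h]
    rw [h2, Rat.cast_zero, zero_add]
    refine diff_le_low (v := 2 - r ^ 2) (by linarith) hg (by linarith [sq_nonneg r]) hf hq
      (mul_nonneg hr hL) ?_
    have := mul_nonneg (sq_nonneg r) hP
    simp only [Seg.cubeP] at this
    linarith

/-- The line above the switch covers the segment. -/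
theorem Seg.covers_of_switch (S : Seg)
    (hc : ∀ r : ℝ, S.a ≤ r → r ≤ S.b → 0 ≤ S.switchP r) : S.Covers :=
  fun f g r ha hb hs _ _ hf _ => by
    have hP := hc r ha hb
    simp only [Seg.switchP] at hP
    linarith

lemma qHi_eq (f : ℝ) : qHi f = f ^ 3 - gamQ * (f - 11 / 10) ^ 3 := by
  simp only [qHi, npw_real, Lit.lit, swR, gamR, gamQ]
  push_cast
  ring

/-- The level, less two, on the line of a piece. -/
def Piece.levelP (T : Piece) (g : ℝ) : ℝ :=
  (T.c0 + T.c1 * g) ^ 3 - gamQ * (T.c0 + T.c1 * g - 11 / 10) ^ 3 + g ^ 3 - 2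

/-- The position of the line of a piece from its polynomial. -/
theorem Piece.above_of (T : Piece) (h0 : 11 / 10 ≤ T.c0 + T.c1 * T.a)
    (h1 : 11 / 10 ≤ T.c0 + T.c1 * T.b) (h2 : T.c0 + T.c1 * T.a ≤ 141 / 100)
    (h3 : T.c0 + T.c1 * T.b ≤ 141 / 100)
    (hc : ∀ g : ℝ, T.a ≤ g → g ≤ T.b → 0 ≤ T.levelP g) : T.Above := fun g ha hb => by
  have hP := hc g ha hb
  have e0 : ((11 / 10 : ℚ) : ℝ) ≤ T.c0 + T.c1 * T.a := by exact_mod_cast h0
  have e1 : ((11 / 10 : ℚ) : ℝ) ≤ T.c0 + T.c1 * T.b := by exact_mod_cast h1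
  have e2 : (T.c0 + T.c1 * T.a : ℝ) ≤ ((141 / 100 : ℚ) : ℝ) := by exact_mod_cast h2
  have e3 : (T.c0 + T.c1 * T.b : ℝ) ≤ ((141 / 100 : ℚ) : ℝ) := by exact_mod_cast h3
  push_cast at e0 e1 e2 e3
  simp only [Piece.levelP] at hP
  rw [qHi_eq]
  refine ⟨?_, ?_, by linarith⟩ <;> rcases le_total 0 (T.c1 : ℝ) with h | h <;>
    nlinarith

end

end Vale.Agent.P211.Cert.Interior
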