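import Vale.Agent.P211.Cert.Interior.Entries
import Vale.Agent.P211.Cert.Check.Root
import Vale.Agent.P211.Cert.Vector

/-!
P211, a cell of the interior family: a scaled point given by chart expressions in three variables
of the unit cube and, last, one projective variable.  Row `i` of the matrix is finished at degree
`n0 + rows i` in the last one, so that a congruence keeps every power of the padding apart.
-/

namespace Vale.Agent.P211.Cert.Interior

open Chart
open Vale.Agent.P098.Cert6.Kron (Poly Deg RootPar parOK evalR)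

/-- The data of a cell. -/
structure Cell where
  env : EnvD HP
  q : ℕ
  d : Deg
  n0 : ℕ
  rows : Check.V3 ℕ
  hi : Bool

/-- The weight `eps (5 g / 3) ^ k`, which lies above the shared one. -/
structure Wgt where
  eps : ℚ
  k : ℕ

/-- The weight at a point. -/
def Wgt.at {α : Type} [Lit α] [Add α] [Mul α] [Neg α] (W : Wgt) (E : EnvD α) : α :=
  Lit.lit W.eps * npw (Lit.lit (5 / 3) * gPt E) W.k

/-- The entries of a chart on a side of the switch. -/
def chartList {α : Type} [Lit α] [Add α] [Mul α] [Neg α] (V : Vec) (W : Wgt) (hi : Bool)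
    (E : EnvD α) : List α :=
  entries V hi E (W.at E)

/-- The degree of an entry in the last pair. -/
def Cell.deg (c : Cell) (i j : Fin 3) : ℕ := c.n0 + c.rows.get i + c.rows.get j

/-- An entry, finished and padded to the common degree. -/
def Cell.poly (c : Cell) (i j : Fin 3) (a : HP) : Poly :=
  pad1 (finish c.q (c.d.1, c.d.2.1, c.d.2.2.1, c.deg i j) a) 3 (c.d.2.2.2 - c.deg i j)

/-- The six expressions. -/
def Cell.polys (c : Cell) (V : Vec) (W : Wgt) : List Poly :=
  let l := chartList V W c.hi c.env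
  [c.poly 0 0 (l.getD 0 none), c.poly 0 1 (l.getD 1 none), c.poly 0 2 (l.getD 2 none),
    c.poly 1 1 (l.getD 3 none), c.poly 1 2 (l.getD 4 none), c.poly 2 2 (l.getD 5 none)]

/-- The test of a cell. -/
def Cell.ok (c : Cell) (V : Vec) (W : Wgt) : Bool :=
  let l := chartList V W c.hi c.env
  let t := fun (i j : Fin 3) (k : ℕ) =>
    finishOK c.q (c.d.1, c.d.2.1, c.d.2.2.1, c.deg i j) (l.getD k none)
  t 0 0 0 && t 0 1 1 && t 0 2 2 && t 1 1 3 && t 1 2 4 && t 2 2 5

noncomputable section

lemma map_qHi {α β : Type} [Lit α] [Add α] [Mul α] [Neg α] [Lit β] [Add β] [Mul β] [Neg β]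
    {φ : α → β} (h : IsLitHom φ) (f : α) : φ (qHi f) = qHi (φ f) := by
  simp only [qHi, h.add, h.mul, h.lit, h.npw]

lemma map_entries {α β : Type} [Lit α] [Add α] [Mul α] [Neg α] [Lit β] [Add β] [Mul β] [Neg β]
    {φ : α → β} (h : IsLitHom φ) (V : Vec) (E : EnvD α) (W : Wgt) (hi : Bool) :
    (chartList V W hi E).map φ = chartList V W hi (E.map φ) := by
  cases hi <;>
    simp only [chartList, cond_false, cond_true, entries, react2, Wgt.at, gPt, List.map_cons,
      List.map_nil, h.add, h.mul, h.neg, h.lit, h.npw, map_qHi h, map_eHi h,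
      EnvD.map_sV h, EnvD.map_sA h, EnvD.map_sW h, EnvD.map_sU h, EnvD.map_one h, ll, lv, lam,
      vv, ww] <;>
    rfl

/-- The value of the point of a cell. -/
def Cell.point (c : Cell) (p : Fin 4 → ℝ) : EnvD ℝ := c.env.map (val p)

/-- A cell whose root is good gives the sign of its form. -/
theorem Cell.form_nonneg {c : Cell} {V : Vec} {W : Wgt} {R : RootPar}
    {fs : List Vale.Agent.P098.Check6.Face}
    (hpar : parOK R c.d = true) (hok : c.ok V W = true)
    (hall : Check.rootsOK R c.d (c.polys V W) fs = true)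
    (hgood : Check.Good ⟨false, false, false⟩ (Check.rootCfg R c.d)
      (Check.rootSt R c.d (c.polys V W) fs))
    {p : Fin 4 → ℝ} (hp : ∀ i, p i ∈ Set.Icc (0 : ℝ) 1) (h3 : p 3 < 1) (H m : ℝ) :
    0 ≤ form6 (chartList V W c.hi (c.point p)) H m := by
  set y : ℝ := 1 - p 3 with hy
  have hy0 : 0 < y := by linarith
  simp only [Cell.ok, Bool.and_eq_true] at hok
  obtain ⟨⟨⟨⟨⟨k00, k01⟩, k02⟩, k11⟩, k12⟩, k22⟩ := hok
  have e : ∀ (i j : Fin 3) (k : ℕ),
      finishOK c.q (c.d.1, c.d.2.1, c.d.2.2.1, c.deg i j)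
        ((chartList V W c.hi c.env).getD k none) = true →
      evalR p (c.poly i j ((chartList V W c.hi c.env).getD k none)) =
        (c.q + 1 : ℕ) * (y ^ c.n0 * y ^ c.rows.get i * y ^ c.rows.get j) *
          (chartList V W c.hi (c.point p)).getD k 0 := fun i j k hk => by
    rw [Cell.poly, evalR_pad1, evalR_finish h3 hk, Cell.point,
      ← map_entries (isLitHom_val h3) V c.env W c.hi, ← hy, Cell.deg, pow_add, pow_add,
      show (0 : ℝ) = val p (none : HP) from rfl, List.getD_map]
  have key := Check.nonneg_of_good hpar (le_of_eq rfl) hall hgood p hp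
    (fun i h6 hi => absurd hi (by simp [Cell.polys] at *; omega))
    ![1 / y ^ c.rows.a0, H / y ^ c.rows.a1, m / y ^ c.rows.a2] (fun i hi => by
      fin_cases i <;> simp [Check.V3.get] at hi)
  simp only [Vale.Agent.P098.Check6.quadForm, Fin.sum_univ_three, show Check.tri 0 0 = 0 from rfl,
    show Check.tri 0 1 = 1 from rfl, show Check.tri 0 2 = 2 from rfl,
    show Check.tri 1 0 = 1 from rfl, show Check.tri 1 1 = 3 from rfl,
    show Check.tri 1 2 = 4 from rfl, show Check.tri 2 0 = 2 from rfl,
    show Check.tri 2 1 = 4 from rfl, show Check.tri 2 2 = 5 from rfl,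
    Cell.polys, List.getD_cons_zero, List.getD_cons_succ, Matrix.cons_val_zero,
    Matrix.cons_val_one, Matrix.cons_val] at key
  simp only [e _ _ _ k00, e _ _ _ k01, e _ _ _ k02, e _ _ _ k11, e _ _ _ k12, e _ _ _ k22,
    Check.V3.get] at key
  have hc : (0 : ℝ) < (c.q + 1 : ℕ) * y ^ c.n0 := by positivity
  refine nonneg_of_mul_nonneg_right (key.trans_eq ?_) hc
  simp only [form6]
  field_simp
  ring

/-- A good cell gives the interior condition at the points it covers. -/
theorem interior_of_form {V : Vec} {W : Wgt} {hi : Bool} {E : EnvD ℝ} {f g A : ℝ}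
    (hV : VecDiag V) (h3 : ∀ H m : ℝ, 0 ≤ form6 (chartList V W hi E) H m)
    (hE : E.At f g A) (hs : OnSide hi E f g) (hr : E.r ≠ 0) (hp : E.p ≠ 0) (H m : ℝ) :
    W.eps * (5 / 3 * g) ^ W.k * ((A + (f - g) ^ 2) ^ 4 * (1 + A) ^ 2) ≤
      intForm V f g A A H m := by
  set l := (react2 hi E).1 with hl
  set r := E.r with hr'
  set s := E.p with hs'
  have hW : W.at E = W.eps * (5 / 3 * g) ^ W.k := by
    simp only [Wgt.at, Lit.lit, npw_real, gPt_eq hE]
    push_cast
    rfl
  have h := intForm_eq hV hE hp hs (W.at E) (H / (r * s) - l) (m * s / r)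
  rw [← hr', ← hs', ← hl, show r * s * (H / (r * s) - l + l) = H by rw [sub_add_cancel]; field_simp,
    show r * (m * s / r) / s = m by field_simp, hW] at h
  have hf : 0 ≤ form6 (entries V hi E (W.at E)) (H / (r * s) - l) (m * s / r) := h3 _ _
  rw [hW] at hf
  have : 0 ≤ r ^ 8 * s ^ 2 * form6 (entries V hi E (W.eps * (5 / 3 * g) ^ W.k))
      (H / (r * s) - l) (m * s / r) :=
    mul_nonneg (mul_nonneg (by rw [show 8 = 2 * 4 from rfl, pow_mul]; positivity) (sq_nonneg _)) hf
  rw [mul_assoc ((W.eps : ℝ) * (5 / 3 * g) ^ W.k)] at h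
  linarith

end

end Vale.Agent.P211.Cert.Interior
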