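import Vale.Agent.P211.Cert.LevelFacts
import Vale.Agent.P211.Cert.Chart.Shape

/-!
P211, the domain of the interior family: along `f + g` fixed the constraint function grows with
`f - g`, so a curve above the level bounds `f - g` on the domain.
-/

namespace Vale.Agent.P211.Cert.Interior

noncomputable section

/-- The slope stays above one past the first unit. -/
lemma eLev_ge {f : ℝ} (h1 : f ≤ 141 / 100) (h : 11 / 10 ≤ f) : 1 < eLev f := by
  rw [eLev, gamQ, max_eq_left (by linarith)]
  nlinarith [mul_nonneg (show 0 ≤ f - 11 / 10 by linarith) (show 0 ≤ 141 / 100 - f by linarith)]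

/-- Strictly further from the diagonal is strictly higher. -/
lemma level_strict {f g f0 g0 : ℝ} (hsum : f + g = f0 + g0) (hg : 0 ≤ g) (hlt : g < g0)
    (hle : g0 ≤ f0) (hg0 : g0 ≤ 1) (hf : f ≤ 141 / 100) :
    qLev f0 + qLev g0 < qLev f + qLev g := by
  obtain ⟨d, hd, rfl⟩ : ∃ d, 0 < d ∧ f = f0 + d := ⟨f - f0, by linarith, by ring⟩
  have eg : g = g0 - d := by linarith
  rw [(qLev_low (show g ≤ 11 / 10 by linarith)).1, (qLev_low (show g0 ≤ 11 / 10 by linarith)).1]
  suffices h : 3 * g0 ^ 2 * d < qLev (f0 + d) - qLev f0 by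
    have := mul_nonneg (sq_nonneg (g0 - g)) (show 0 ≤ g + 2 * g0 by linarith)
    have e : 3 * g0 ^ 2 * d = g0 ^ 3 - g ^ 3 + (g0 - g) ^ 2 * (g + 2 * g0) := by rw [eg]; ring
    linarith
  have hg2 : g0 ^ 2 ≤ 1 := pow_le_one₀ (by linarith) hg0
  have hgf : g0 ^ 2 ≤ f0 ^ 2 := pow_le_pow_left₀ (by linarith) hle 2
  rcases le_total (f0 + d) (11 / 10) with hF | hF
  · rw [(qLev_low hF).1, (qLev_low (by linarith)).1]
    have h1 := mul_le_mul_of_nonneg_left hgf hd.le
    have h2 := mul_pos (mul_pos hd hd) (show 0 < 3 * f0 + d by linarith)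
    have e : (f0 + d) ^ 3 - f0 ^ 3 = 3 * (d * f0 ^ 2) + d * d * (3 * f0 + d) := by ring
    linarith
  · have h1 := eLev_ge hf hF
    rw [eLev, max_eq_left (by linarith)] at h1
    rcases le_total f0 (11 / 10) with h0 | h0
    · rw [(qLev_low h0).1, qLev, max_eq_left (by linarith)]
      have hz : 0 ≤ f0 + d - 11 / 10 := by linarith
      have hzd : f0 + d - 11 / 10 ≤ d := by linarith
      have hgam : 0 ≤ gamQ := by norm_num [gamQ]
      have hcube : gamQ * (f0 + d - 11 / 10) ^ 3 ≤ gamQ * (f0 + d - 11 / 10) ^ 2 * d := by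
        rw [pow_succ, ← mul_assoc]
        exact mul_le_mul_of_nonneg_left hzd (mul_nonneg hgam (sq_nonneg _))
      set F := f0 + d with hF'
      set z := F - 11 / 10 with hz'
      have hk : 3 * g0 ^ 2 < (F ^ 2 - gamQ * z ^ 2) + F * f0 + f0 ^ 2 := by
        have : f0 ^ 2 ≤ F * f0 := by
          rw [sq]; exact mul_le_mul_of_nonneg_right (by linarith) (by linarith)
        linarith
      have h3 := mul_lt_mul_of_pos_left hk hd
      have e : d * ((F ^ 2 - gamQ * z ^ 2) + F * f0 + f0 ^ 2) =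
          F ^ 3 - f0 ^ 3 - gamQ * z ^ 2 * d := by rw [hF']; ring
      linarith
    · have h2 := eLev_ge (show f0 ≤ 141 / 100 by linarith) h0
      rw [eLev, max_eq_left (by linarith)] at h2
      rw [qLev, qLev, max_eq_left (by linarith), max_eq_left (by linarith)]
      set F := f0 + d with hF'
      set z := F - 11 / 10 with hz'
      set y := f0 - 11 / 10 with hy'
      have hz0 : 0 ≤ z := by linarith
      have hzy : gamQ * (z * y) ≤ 443 / 100 * (31 / 100) * y := by
        have hgam : gamQ ≤ 443 / 100 := by norm_num [gamQ]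
        have hy0 : 0 ≤ y := by linarith
        rw [← mul_assoc, mul_assoc (443 / 100 : ℝ)]
        calc gamQ * z * y ≤ 443 / 100 * (31 / 100) * y :=
              mul_le_mul_of_nonneg_right (mul_le_mul hgam (by linarith) hz0 (by norm_num)) hy0
          _ = _ := by ring
      have hk : 3 * g0 ^ 2 <
          (F ^ 2 - gamQ * z ^ 2) + (F * f0 - gamQ * (z * y)) + (f0 ^ 2 - gamQ * y ^ 2) := by
        have e : F * f0 = z * y + 11 / 10 * z + 11 / 10 * y + 121 / 100 := by
          rw [hz', hy']; ring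
        have : 0 ≤ z * y := mul_nonneg hz0 (by linarith)
        linarith
      have h3 := mul_lt_mul_of_pos_left hk hd
      have e : d * ((F ^ 2 - gamQ * z ^ 2) + (F * f0 - gamQ * (z * y)) + (f0 ^ 2 - gamQ * y ^ 2)) =
          F ^ 3 - gamQ * z ^ 3 - (f0 ^ 3 - gamQ * y ^ 3) := by rw [hz', hy', hF']; ring
      linarith

/-- Strictly increasing past the switch. -/
lemma qLev_lt {a b : ℝ} (ha : 11 / 10 ≤ a) (hab : a < b) (hb : b ≤ 141 / 100) :
    qLev a < qLev b := by
  have h1 := eLev_ge hb (ha.trans hab.le)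
  have h2 := eLev_ge (show a ≤ 141 / 100 by linarith) ha
  rw [eLev, max_eq_left (by linarith)] at h1 h2
  rw [qLev, qLev, max_eq_left (by linarith), max_eq_left (by linarith)]
  set z := b - 11 / 10 with hz
  set y := a - 11 / 10 with hy
  have hgam : gamQ * (z * y) ≤ 443 / 100 * (31 / 100) * y := by
    have hg : gamQ ≤ 443 / 100 := by norm_num [gamQ]
    rw [← mul_assoc, mul_assoc (443 / 100 : ℝ)]
    calc gamQ * z * y ≤ 443 / 100 * (31 / 100) * y :=
          mul_le_mul_of_nonneg_right (mul_le_mul hg (by linarith) (by linarith) (by norm_num))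
            (by linarith)
      _ = _ := by ring
  have e : b * a = z * y + 11 / 10 * z + 11 / 10 * y + 121 / 100 := by rw [hz, hy]; ring
  have : 0 ≤ z * y := mul_nonneg (by linarith) (by linarith)
  have hk : 0 < (b ^ 2 - gamQ * z ^ 2) + (b * a - gamQ * (z * y)) + (a ^ 2 - gamQ * y ^ 2) := by
    linarith
  have h3 := mul_pos (sub_pos.2 hab) hk
  have e2 : (b - a) * ((b ^ 2 - gamQ * z ^ 2) + (b * a - gamQ * (z * y)) + (a ^ 2 - gamQ * y ^ 2)) =
      b ^ 3 - gamQ * z ^ 3 - (a ^ 3 - gamQ * y ^ 3) := by rw [hz, hy]; ring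
  linarith

/-- A value past the switch below the level stays below a line above the curve. -/
lemma le_line {f g L : ℝ} (hg : g ≤ 11 / 10) (hf : f ≤ 141 / 100) (hL : 11 / 10 ≤ L)
    (hab : 2 ≤ Chart.qHi L + g ^ 3) (hq : qLev f + qLev g ≤ 2) : f ≤ L := by
  by_contra hc
  have h := qLev_lt hL (not_le.1 hc) hf
  rw [(Chart.level_hi hL).1] at h
  rw [(qLev_low hg).1] at hq
  linarith

/-- The cubes bound the distance from the diagonal below the switch. -/
lemma diff_le_low {f g v w0 : ℝ} (hv : f + g = v) (hg : 0 ≤ g) (hv2 : v ≤ 2)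
    (hf : f ≤ 11 / 10) (hq : qLev f + qLev g ≤ 2) (hw0 : 0 ≤ w0)
    (hlo : 2 ≤ ((v + w0) / 2) ^ 3 + ((v - w0) / 2) ^ 3) : f - g ≤ w0 := by
  by_contra hc
  rw [not_le] at hc
  have h := level_strict (f := f) (g := g) (f0 := (v + w0) / 2) (g0 := (v - w0) / 2)
    (by linarith) hg (by linarith) (by linarith) (by linarith) (by linarith)
  rw [(qLev_low (show (v - w0) / 2 ≤ 11 / 10 by linarith)).1,
    (qLev_low (show (v + w0) / 2 ≤ 11 / 10 by linarith)).1] at h
  linarith

end

end Vale.Agent.P211.Cert.Interior
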