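import Vale.Agent.P211.Cert.Interior.Cell
import Vale.Agent.P211.Cert.Interior.Domain

/-!
P211, the interior family.  Up to the switch `f ≤ 11 / 10`: segments of `r = √σ` with a line above
`(f - g) / r` on the domain, and the charts at `f + g ≤ 23 / 20`, each in four charts by the place
of `A`, the last one projective.  Past the switch: pieces of `g` with a line above `f`.
-/

namespace Vale.Agent.P211.Cert.Interior

open Chart

/-- A segment `a ≤ √σ ≤ b` and its bound `c + √σ (c0 + c1 √σ)` for `f - g`. -/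
structure Seg where
  a : ℚ
  b : ℚ
  c : ℚ
  c0 : ℚ
  c1 : ℚ

/-- A piece `a ≤ g ≤ b` and its line `c0 + c1 g` above `f`. -/
structure Piece where
  a : ℚ
  b : ℚ
  c0 : ℚ
  c1 : ℚ

/-- The end of the charts around the origin in `f + g`. -/
def endV : ℚ := 23 / 20

/-- An affine variable between two rationals. -/
def between (a b : ℚ) (i : Fin 4) : HP := Lit.lit a + Lit.lit (b - a) * var i

/-- The first variable of a segment. -/
def Seg.r (S : Seg) : HP := between S.a S.b 0

/-- The line over `√σ`. -/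
def Seg.line (S : Seg) (r : HP) : HP := Lit.lit S.c0 + Lit.lit S.c1 * r

/-- One. -/
def one' : HP := Lit.lit 1

/-- The bound at the point. -/
def Seg.bound (S : Seg) (r : HP) : HP := Lit.lit S.c + r * S.line r

/-- `A ≤ w²`. -/
def Seg.chW (S : Seg) : EnvD HP :=
  if S.c = 0 then ⟨S.r, var 1 * S.line S.r, one', one', var 2, kapR⟩
  else ⟨one', var 1 * S.bound S.r, one', S.r * S.r, var 2, kapR⟩

/-- `w² ≤ A ≤ σ`. -/
def Seg.chD (S : Seg) : EnvD HP := ⟨S.r, var 2, var 1, one', one', kapR⟩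

/-- `σ ≤ A ≤ 1`, apart from the singular point. -/
def Seg.chX (S : Seg) : EnvD HP :=
  ⟨one', one', var 1 * S.bound S.r, S.r * S.r,
    between (if S.a = 0 then S.b * S.b else S.a * S.a) 1 2, kapR⟩

/-- `σ ≤ A` at the singular point. -/
def Seg.chA (S : Seg) : EnvD HP :=
  let r := Lit.lit S.b * var 2
  ⟨r, one', var 0 * var 1 * S.line (var 0 * r), var 0 * var 0, one', kapR⟩

/-- `1 ≤ A`. -/
def Seg.chU (S : Seg) : EnvD HP :=
  ⟨one', one', var 1 * S.bound S.r, S.r * S.r, one' + var 3, kapR⟩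

/-- `g` on a piece. -/
def Piece.g (T : Piece) : HP := between T.a T.b 0

/-- `f` on a piece. -/
def Piece.f (T : Piece) : HP :=
  Lit.lit (11 / 10) + var 1 * (Lit.lit (T.c0 - 11 / 10) + Lit.lit T.c1 * T.g)

/-- `A ≤ 1` past the switch. -/
def Piece.chA (T : Piece) : EnvD HP :=
  ⟨one', one', T.f + -T.g, Lit.lit 2 + -T.f + -T.g, var 2, kapR⟩

/-- `1 ≤ A` past the switch. -/
def Piece.chU (T : Piece) : EnvD HP :=
  ⟨one', one', T.f + -T.g, Lit.lit 2 + -T.f + -T.g, one' + var 3, kapR⟩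

/-- `f + g` away from the curve. -/
def origV : HP := Lit.lit endV * var 0

/-- `σ` there. -/
def origS : HP := Lit.lit 2 + -origV

/-- The chart at `4 (f - g)² ≤ A ≤ v²`, one of three beside the one in `Near`. -/
def origD : EnvD HP := ⟨one', var 2 * origV, Lit.lit (1 / 2) * var 1, origS, one', kapR⟩

/-- See `origD`. -/
def origX : EnvD HP :=
  ⟨one', var 2, var 0 * var 1, Lit.lit 2 + -(var 0 * var 2), one', kapR⟩

/-- See `origD`. -/
def origU : EnvD HP := ⟨one', one', var 1 * origV, origS, one' + var 3, kapR⟩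

/-- A chain of segments from `a` to `b`. -/
def Chain : ℚ → List Seg → ℚ → Prop
  | a, [], b => a = b
  | a, S :: l, b => S.a = a ∧ Chain S.b l b

instance decChain : ∀ a l b, Decidable (Chain a l b)
  | a, [], b => inferInstanceAs (Decidable (a = b))
  | _, S :: l, b => @instDecidableAnd _ _ _ (decChain S.b l b)

/-- A chain of pieces from `a` to `b`. -/
def ChainP : ℚ → List Piece → ℚ → Prop
  | a, [], b => a = b
  | a, T :: l, b => T.a = a ∧ ChainP T.b l b

instance decChainP : ∀ a l b, Decidable (ChainP a l b)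
  | a, [], b => inferInstanceAs (Decidable (a = b))
  | _, T :: l, b => @instDecidableAnd _ _ _ (decChainP T.b l b)

noncomputable section

/-- The form of a chart is nonnegative on its whole box. -/
def Pos (V : Vec) (W : Wgt) (hi : Bool) (e : EnvD HP) : Prop :=
  ∀ p : Fin 4 → ℝ, (∀ i, p i ∈ Set.Icc (0 : ℝ) 1) → p 3 < 1 → ∀ H m : ℝ,
    0 ≤ form6 (chartList V W hi (e.map (val p))) H m

/-- A good cell makes its chart positive. -/
theorem pos_of_good {c : Cell} {V : Vec} {W : Wgt} {hi : Bool} {e : EnvD HP}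
    {R : Vale.Agent.P098.Cert6.Kron.RootPar}
    {fs : List Vale.Agent.P098.Check6.Face} (he : c.env = e) (hh : c.hi = hi)
    (hpar : Vale.Agent.P098.Cert6.Kron.parOK R c.d = true) (hok : c.ok V W = true)
    (hall : Check.rootsOK R c.d (c.polys V W) fs = true)
    (hgood : Check.Good ⟨false, false, false⟩ (Check.rootCfg R c.d)
      (Check.rootSt R c.d (c.polys V W) fs)) :
    Pos V W hi e := fun p hp h3 H m => by
  have h := c.form_nonneg hpar hok hall hgood hp h3 H m
  rwa [Cell.point, he, hh] at h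

/-- The line bounds the domain below the switch on the segment. -/
def Seg.Covers (S : Seg) : Prop :=
  ∀ f g r : ℝ, S.a ≤ r → r ≤ S.b → 2 - f - g = r ^ 2 → 0 ≤ g → g ≤ f → f ≤ 11 / 10 →
    qLev f + qLev g ≤ 2 → f - g ≤ S.c + r * (S.c0 + S.c1 * r)

/-- The line lies above the curve on the piece. -/
def Piece.Above (T : Piece) : Prop :=
  ∀ g : ℝ, T.a ≤ g → g ≤ T.b → 11 / 10 ≤ T.c0 + T.c1 * g ∧ T.c0 + T.c1 * g ≤ 141 / 100 ∧
    2 ≤ qHi ((T.c0 : ℝ) + T.c1 * g) + g ^ 3

lemma exists_piece : ∀ {a : ℚ} {l : List Piece} {b : ℚ} {r : ℝ}, ChainP a l b → l ≠ [] →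
    (a : ℝ) ≤ r → r ≤ b → ∃ T ∈ l, (T.a : ℝ) ≤ r ∧ r ≤ T.b
  | _, [], _, _, _, h, _, _ => absurd rfl h
  | a, S :: [], b, r, h, _, ha, hb => by
    obtain ⟨h1, h2⟩ := h
    exact ⟨S, List.mem_cons_self, by rw [h1]; exact ha, by rw [show S.b = b from h2]; exact hb⟩
  | a, S :: T :: l, b, r, h, _, ha, hb => by
    rcases le_or_gt r S.b with hr | hr
    · exact ⟨S, List.mem_cons_self, by rw [h.1]; exact ha, hr⟩
    · obtain ⟨U, hU, hU'⟩ := exists_piece h.2 (List.cons_ne_nil T l) hr.le hb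
      exact ⟨U, List.mem_cons_of_mem _ hU, hU'⟩

lemma exists_seg : ∀ {a : ℚ} {l : List Seg} {b : ℚ} {r : ℝ}, Chain a l b → l ≠ [] →
    (a : ℝ) ≤ r → r ≤ b → ∃ S ∈ l, (S.a : ℝ) ≤ r ∧ r ≤ S.b
  | _, [], _, _, _, h, _, _ => absurd rfl h
  | a, S :: [], b, r, h, _, ha, hb => by
    obtain ⟨h1, h2⟩ := h
    exact ⟨S, List.mem_cons_self, by rw [h1]; exact ha, by rw [show S.b = b from h2]; exact hb⟩
  | a, S :: T :: l, b, r, h, _, ha, hb => by
    rcases le_or_gt r S.b with hr | hr
    · exact ⟨S, List.mem_cons_self, by rw [h.1]; exact ha, hr⟩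
    · obtain ⟨U, hU, hU'⟩ := exists_seg h.2 (List.cons_ne_nil T l) hr.le hb
      exact ⟨U, List.mem_cons_of_mem _ hU, hU'⟩

/-- A quadratic bounded below has a nonnegative leading coefficient. -/
lemma lead_nonneg {a b c : ℝ} (h : ∀ t : ℝ, 0 ≤ a + b * t + c * t ^ 2) : 0 ≤ c := by
  by_contra hc
  rw [not_le] at hc
  have ha : 0 ≤ a := by simpa using h 0
  set t := (|a| + |b| + 1) / (-c) + 1 with ht
  have h0 : 0 ≤ (|a| + |b| + 1) / (-c) := div_nonneg (by positivity) (by linarith)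
  have h1 : 1 ≤ t := by linarith
  have h2 : c * t ≤ -(|a| + |b| + 1) := by
    rw [ht, mul_add, mul_one, ← mul_div_assoc, div_neg, mul_div_cancel_left₀ _ hc.ne]
    linarith
  have h3 := mul_le_mul_of_nonneg_right h2 (show 0 ≤ t by linarith)
  have := h t
  nlinarith [mul_le_mul_of_nonneg_right (le_abs_self b) (show 0 ≤ t by linarith), le_abs_self a,
    mul_le_mul_of_nonneg_left h1 (abs_nonneg a)]

lemma sA_zero {E : EnvD ℝ} (hp : E.p = 0) (k : ℕ) (Y : Num) : E.sA k 0 Y = 0 := by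
  have e : lsum (Y.map (E.tA k 0)) = 0 := by
    rw [lsum_real]
    refine List.sum_eq_zero fun x hx => ?_
    obtain ⟨T, _, rfl⟩ := List.mem_map.1 hx
    simp only [EnvD.tA, npw_real, hp, wd, Nat.sub_zero, Lit.lit]
    rcases Nat.eq_zero_or_pos T.a with ha | ha
    · rw [ha]; push_cast; ring
    · rw [show (0 : ℝ) ^ (2 * T.a + T.b) = 0 from zero_pow (by omega),
        show (0 : ℝ) ^ (2 * T.a + T.b + 2) = 0 from zero_pow (by omega)]
      ring
  simp only [EnvD.sA, e, EnvD.x, hp, Lit.lit]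
  ring

variable {V : Vec} {W : Wgt} {hi : Bool} {e : EnvD HP} {f g A : ℝ} {p : Fin 4 → ℝ}

/-- The right hand side of the family. -/
def rhs (W : Wgt) (f g A : ℝ) : ℝ :=
  W.eps * (5 / 3 * g) ^ W.k * ((A + (f - g) ^ 2) ^ 4 * (1 + A) ^ 2)

/-- At a point of a positive chart off the two exceptional sets the condition holds. -/
lemma Pos.apply (h : Pos V W hi e) (hV : VecDiag V) (hp : ∀ i, p i ∈ Set.Icc (0 : ℝ) 1)
    (h3 : p 3 < 1) (hs : OnSide hi (e.map (val p)) f g) (hE : (e.map (val p)).At f g A)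
    (hr : (e.map (val p)).r ≠ 0) (hq : (e.map (val p)).p ≠ 0) (H m : ℝ) :
    rhs W f g A ≤ intForm V f g A A H m :=
  interior_of_form (hi := hi) hV (h p hp h3) hE hs hr hq H m

/-- On the diagonal without gradient. -/
lemma Pos.apply_diag (h : Pos V W hi e) (hV : VecDiag V) (hp : ∀ i, p i ∈ Set.Icc (0 : ℝ) 1)
    (h3 : p 3 < 1) (hE : (e.map (val p)).At f f 0) (hq : (e.map (val p)).p = 0) (H m : ℝ) :
    rhs W f f 0 ≤ intForm V f f 0 0 H m := by
  obtain ⟨_, h1, h2⟩ := hV
  have e1 : scV V.Y1 f f 0 = 0 := by rw [hE.scV_eq h1, hq]; ring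
  have e2 : 0 ≤ scV V.Y2 f f 0 := by
    rw [hE.scV_eq h2, hq, pow_zero, mul_one]
    refine mul_nonneg (by rw [show 4 + 2 = 2 * 3 from rfl, pow_mul]; positivity) ?_
    set E := e.map (val p) with hE'
    set l := entries V hi E (W.at E) with hl'
    have := lead_nonneg (a := l.getD 0 0) (b := 2 * l.getD 1 0) (c := l.getD 3 0) fun t => by
      have h0 : 0 ≤ form6 l t 0 := h p hp h3 t 0
      simp only [form6] at h0
      linarith
    simp only [hl', entries, List.getD_cons_zero, List.getD_cons_succ, Lit.lit, sA_zero hq] at this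
    push_cast at this
    linarith
  simp only [rhs, intForm, bodyForm, e1, sub_self]
  nlinarith [mul_nonneg e2 (sq_nonneg H)]

end

end Vale.Agent.P211.Cert.Interior
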