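import Vale.Agent.P211.Cert.Interior.Near

/-!
P211, the charts of the interior family cover the half `g ≤ f` of the domain.
-/

namespace Vale.Agent.P211.Cert.Interior

open Chart

noncomputable section

/-- What is asked of a family of segments and pieces. -/
structure Family (V : Vec) (W : Wgt) (segs : List Seg) (pcs : List Piece) : Prop where
  diag : VecDiag V
  chain : ∃ b : ℚ, Chain 0 segs b ∧ 17 / 20 ≤ b * b ∧ 0 ≤ b
  chainP : ∃ b : ℚ, ChainP 0 pcs b ∧ 669 / 1000 ≤ b * (b * b) ∧ 0 ≤ b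
  ne : segs ≠ []
  neP : pcs ≠ []
  sign : ∀ S ∈ segs, 0 ≤ S.a ∧ S.a < S.b ∧ S.b ≤ 1 ∧ (S.a = 0 → S.c = 0)
  signP : ∀ T ∈ pcs, T.a < T.b
  covers : ∀ S ∈ segs, S.Covers
  above : ∀ T ∈ pcs, T.Above
  segW : ∀ S ∈ segs, Pos V W false S.chW
  segD : ∀ S ∈ segs, Pos V W false S.chD
  segX : ∀ S ∈ segs, Pos V W false S.chX
  segA : ∀ S ∈ segs, S.a = 0 → Pos V W false S.chA
  segU : ∀ S ∈ segs, Pos V W false S.chU
  pcA : ∀ T ∈ pcs, Pos V W true T.chA
  pcU : ∀ T ∈ pcs, Pos V W true T.chU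
  oW : ∀ B ∈ boxesW, Pos V W false B.env
  near : Near V W
  oD : Pos V W false origD
  oX : Pos V W false origX
  oU : Pos V W false origU

lemma cube_mem {a b c d : ℝ} (ha : a ∈ Set.Icc (0 : ℝ) 1) (hb : b ∈ Set.Icc (0 : ℝ) 1)
    (hc : c ∈ Set.Icc (0 : ℝ) 1) (hd : d ∈ Set.Icc (0 : ℝ) 1) :
    ∀ i, ![a, b, c, d] i ∈ Set.Icc (0 : ℝ) 1 := fun i => by
  fin_cases i <;> assumption

lemma zero_mem : (0 : ℝ) ∈ Set.Icc (0 : ℝ) 1 := ⟨le_rfl, zero_le_one⟩

lemma val_between {p : Fin 4 → ℝ} (h3 : p 3 < 1) (a b : ℚ) (i : Fin 4) (hi : i ≠ 3) :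
    val p (between a b i) = (a : ℝ) + ((b : ℝ) - a) * p i := by
  rw [between, val_add h3, val_mul, val_lit, val_lit, val_var, if_neg hi]
  simp [Lit.lit]

/-- The place of a value between two others. -/
lemma exists_between {a b x : ℝ} (hab : a ≤ b) (ha : a ≤ x) (hb : x ≤ b) :
    ∃ t ∈ Set.Icc (0 : ℝ) 1, a + (b - a) * t = x := by
  rcases hab.eq_or_lt with h | h
  · exact ⟨0, zero_mem, by linarith⟩
  · exact ⟨(x - a) / (b - a), ⟨div_nonneg (by linarith) (by linarith),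
      (div_le_one (by linarith)).2 (by linarith)⟩,
      by rw [mul_div_cancel₀ _ (by linarith : (b - a) ≠ 0)]; ring⟩

/-- A fraction of a nonnegative bound. -/
lemma exists_frac {L w : ℝ} (hw : 0 ≤ w) (h : w ≤ L) : ∃ t ∈ Set.Icc (0 : ℝ) 1, t * L = w := by
  obtain ⟨t, ht, e⟩ := exists_between (hw.trans h) hw h
  exact ⟨t, ht, by linarith⟩

/-- The projective coordinate of `A ≥ 1`. -/
lemma exists_proj {A : ℝ} (h : 1 ≤ A) :
    ∃ t ∈ Set.Icc (0 : ℝ) 1, t < 1 ∧ 1 + t / (1 - t) = A := by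
  have hA : 0 < A := by linarith
  refine ⟨(A - 1) / A, ⟨div_nonneg (by linarith) hA.le, (div_le_one hA).2 (by linarith)⟩,
    (div_lt_one hA).2 (by linarith), ?_⟩
  rw [show 1 - (A - 1) / A = 1 / A by field_simp; ring]
  field_simp
  ring

variable {V : Vec} {W : Wgt} {segs : List Seg} {pcs : List Piece} {f g A : ℝ}

/-- A segment covers its points. -/
lemma Family.seg_case (F : Family V W segs pcs) {S : Seg} (hS : S ∈ segs) {r : ℝ} (hA : 0 ≤ A)
    (ha : (S.a : ℝ) ≤ r) (hb : r ≤ S.b) (hs : 2 - f - g = r ^ 2) (hwg : g ≤ f)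
    (hwb : f - g ≤ S.c + r * (S.c0 + S.c1 * r))
    (hon : ∀ E : EnvD ℝ, OnSide false E f g) (H m : ℝ) :
    rhs W f g A ≤ intForm V f g A A H m := by
  obtain ⟨a0, ab, b1, hc0⟩ := F.sign S hS
  have a0' : (0 : ℝ) ≤ S.a := by exact_mod_cast a0
  have ab' : (S.a : ℝ) < S.b := by exact_mod_cast ab
  have b1' : (S.b : ℝ) ≤ 1 := by exact_mod_cast b1
  have hr0 : 0 ≤ r := a0'.trans ha
  obtain ⟨x0, hx0, ex0⟩ := exists_between ab'.le ha hb
  set L := (S.c0 : ℝ) + S.c1 * r with hL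
  set w := f - g with hw'
  have hw : 0 ≤ w := by linarith
  obtain ⟨μ, hμ, eμ⟩ := exists_frac hw hwb
  rcases le_or_gt A (r ^ 2) with hAs | hAs
  · rcases le_or_gt A (w ^ 2) with hAw | hAw
    · rcases hw.eq_or_lt with h0 | h0
      · -- the diagonal without gradient
        have hfg : f = g := by linarith
        subst hfg
        obtain rfl : A = 0 := le_antisymm (by rw [← h0] at hAw; simpa using hAw) hA
        have h3 : (![x0, 0, 0, 0] : Fin 4 → ℝ) 3 < 1 := by simp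
        refine (F.segD S hS).apply_diag F.diag (cube_mem hx0 zero_mem zero_mem zero_mem) h3
          ⟨?_, ?_, ?_, kapR_eq⟩ ?_ H m <;>
        simp [EnvD.map, Seg.chD, Seg.r, one', val_between h3, val_cst, val_var, Lit.lit, ex0, hs]
      · obtain ⟨y, hy, ey⟩ := exists_frac hA hAw
        have h3 : (![x0, μ, y, 0] : Fin 4 → ℝ) 3 < 1 := by simp
        by_cases hc : S.c = 0
        swap
        · have hW := F.segW S hS
          rw [Seg.chW, if_neg hc] at hW
          refine hW.apply F.diag (cube_mem hx0 hμ hy zero_mem) h3 (hon _)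
            ⟨?_, ?_, ?_, kapR_eq⟩ ?_ ?_ H m <;>
          simp [EnvD.map, Seg.bound, Seg.line, Seg.r, one', val_between h3,
            val_add h3, val_mul, val_cst, val_var, Lit.lit, ex0, hs, ← hL]
          · rw [← hw', ← eμ]
          · ring
          · rw [← ey, ← eμ]; ring
          · exact mul_ne_zero_iff.1 (by rw [eμ]; exact h0.ne')
        rw [hc, Rat.cast_zero, zero_add] at hwb eμ
        have hrn : r ≠ 0 := fun h => by rw [h] at hwb; linarith
        have hz : μ * L ≠ 0 := fun h => by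
          rw [show w = μ * L * r by rw [← eμ]; ring, h] at h0; linarith
        have hW := F.segW S hS
        rw [Seg.chW, if_pos hc] at hW
        refine hW.apply F.diag (cube_mem hx0 hμ hy zero_mem) h3 (hon _)
          ⟨?_, ?_, ?_, kapR_eq⟩ ?_ ?_ H m <;>
        simp [EnvD.map, Seg.line, Seg.r, one', val_between h3, val_add h3, val_mul,
          val_cst, val_var, Lit.lit, ex0, hs, ← hL]
        · rw [← hw', ← eμ]; ring
        · rw [← ey, ← eμ]; ring
        · exact hrn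
        · exact ⟨left_ne_zero_of_mul hz, right_ne_zero_of_mul hz⟩
    · have hA0 : 0 < A := lt_of_le_of_lt (sq_nonneg w) hAw
      have hrp : 0 < r := lt_of_le_of_ne hr0 fun h => by rw [← h] at hAs; linarith
      have hq : 0 < √A := Real.sqrt_pos.2 hA0
      obtain ⟨x2, hx2, ex2⟩ := exists_frac hq.le
        (show √A ≤ r from Real.sqrt_le_iff.2 ⟨hr0, hAs⟩)
      obtain ⟨x1, hx1, ex1⟩ := exists_frac hw
        (show w ≤ √A from (Real.le_sqrt hw hA).2 hAw.le)
      have h3 : (![x0, x1, x2, 0] : Fin 4 → ℝ) 3 < 1 := by simp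
      refine (F.segD S hS).apply F.diag (cube_mem hx0 hx1 hx2 zero_mem) h3 (hon _)
        ⟨?_, ?_, ?_, kapR_eq⟩ ?_ ?_ H m <;>
      simp [EnvD.map, Seg.chD, Seg.r, one', val_between h3, val_cst, val_var, Lit.lit, ex0, hs]
      · rw [← hw', ← ex1, ← ex2]; ring
      · rw [← Real.sq_sqrt hA, ← ex2]; ring
      · exact hrp.ne'
      · intro h; rw [h] at ex2; linarith
  · rcases le_or_gt A 1 with hA1 | hA1
    · have hA0 : 0 < A := lt_of_le_of_lt (sq_nonneg r) hAs
      by_cases hz : S.a = 0 ∧ A < (S.b : ℝ) * S.b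
      · obtain ⟨hz0, hzA⟩ := hz
        have hq : 0 < √A := Real.sqrt_pos.2 hA0
        obtain ⟨x2, hx2, ex2⟩ := exists_frac hq.le (show √A ≤ (S.b : ℝ) from
          Real.sqrt_le_iff.2 ⟨hr0.trans hb, by rw [sq]; exact hzA.le⟩)
        obtain ⟨t, ht, et⟩ := exists_frac hr0
          (show r ≤ √A from (Real.le_sqrt hr0 hA).2 hAs.le)
        have h3 : (![t, μ, x2, 0] : Fin 4 → ℝ) 3 < 1 := by simp
        have e : (S.b : ℝ) * x2 = √A := by linarith
        rw [hc0 hz0, Rat.cast_zero, zero_add] at eμ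
        refine (F.segA S hS hz0).apply F.diag (cube_mem ht hμ hx2 zero_mem) h3 (hon _)
          ⟨?_, ?_, ?_, kapR_eq⟩ ?_ ?_ H m <;>
        simp [EnvD.map, Seg.chA, Seg.line, one', val_add h3, val_mul,
          val_cst, val_var, Lit.lit, hs, e]
        · rw [et, ← hL, ← hw', ← eμ, ← et]; ring
        · rw [← et]; ring
        · rw [Real.sq_sqrt hA]
        · exact hq.ne'
      · set lo : ℚ := if S.a = 0 then S.b * S.b else S.a * S.a with hlo
        have hlo' : (lo : ℝ) ≤ A ∧ (lo : ℝ) ≤ 1 := by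
          rw [hlo]
          split
          · next h =>
            push_cast
            refine ⟨not_lt.1 fun h' => hz ⟨h, h'⟩, ?_⟩
            exact mul_le_one₀ b1' (hr0.trans hb) b1'
          · push_cast
            have : (S.a : ℝ) * S.a ≤ r ^ 2 := by rw [sq]; exact mul_self_le_mul_self a0' ha
            constructor <;> linarith
        obtain ⟨x2, hx2, ex2⟩ := exists_between hlo'.2 hlo'.1 hA1
        have h3 : (![x0, μ, x2, 0] : Fin 4 → ℝ) 3 < 1 := by simp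
        refine (F.segX S hS).apply F.diag (cube_mem hx0 hμ hx2 zero_mem) h3 (hon _)
          ⟨?_, ?_, ?_, kapR_eq⟩ ?_ ?_ H m <;>
        simp [EnvD.map, Seg.chX, Seg.bound, Seg.line, Seg.r, one', ← hlo, val_between h3,
          val_add h3, val_mul, val_cst, val_var, Lit.lit, ex0, hs, ← hL]
        · rw [← hw', ← eμ]
        · ring
        · exact ex2.symm
    · obtain ⟨t, ht, ht1, et⟩ := exists_proj hA1.le
      have h3 : (![x0, μ, 0, t] : Fin 4 → ℝ) 3 < 1 := by simpa using ht1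
      refine (F.segU S hS).apply F.diag (cube_mem hx0 hμ zero_mem ht) h3 (hon _)
        ⟨?_, ?_, ?_, kapR_eq⟩ ?_ ?_ H m <;>
      simp [EnvD.map, Seg.chU, Seg.bound, Seg.line, Seg.r, one', val_between h3, val_add h3,
        val_mul, val_cst, val_var, Lit.lit, ex0, hs, ← hL]
      · rw [← hw', ← eμ]
      · ring
      · exact et.symm

/-- A piece covers its points. -/
lemma Family.piece_case (F : Family V W segs pcs) {T : Piece} (hT : T ∈ pcs) (hA : 0 ≤ A)
    (ha : (T.a : ℝ) ≤ g) (hb : g ≤ T.b) (hf : 11 / 10 ≤ f) (hfb : f ≤ T.c0 + T.c1 * g)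
    (hg : g ≤ 11 / 10) (hq : qLev f + qLev g ≤ 2) (H m : ℝ) :
    rhs W f g A ≤ intForm V f g A A H m := by
  obtain ⟨x0, hx0, ex0⟩ := exists_between (ha.trans hb) ha hb
  obtain ⟨μ, hμ, eμ⟩ := exists_frac (L := (T.c0 : ℝ) + T.c1 * g - 11 / 10) (w := f - 11 / 10)
    (by linarith) (by linarith)
  have hgv : ∀ p : Fin 4 → ℝ, p 3 < 1 → p 0 = x0 → val p T.g = g := fun p h3 hp => by
    simp [Piece.g, val_between h3, hp, ex0]
  have hfv : ∀ p : Fin 4 → ℝ, p 3 < 1 → p 0 = x0 → p 1 = μ → val p T.f = f := fun p h3 hp hp1 => by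
    simp [Piece.f, val_add h3, val_mul, hgv p h3 hp, val_cst, val_var, hp1, Lit.lit]
    linarith
  rcases le_or_gt A 1 with hA1 | hA1
  · have h3 : (![x0, μ, A, 0] : Fin 4 → ℝ) 3 < 1 := by simp
    refine (F.pcA T hT).apply F.diag (cube_mem hx0 hμ ⟨hA, hA1⟩ zero_mem) h3
      ⟨hg, hq, hf, ?_, ?_⟩ ⟨?_, ?_, ?_, kapR_eq⟩ ?_ ?_ H m <;>
    simp [EnvD.map, Piece.chA, one', hgv _ h3 (by simp), hfv _ h3 (by simp) (by simp),
      val_add h3, val_neg, val_cst, val_var,
      Lit.lit]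
    all_goals ring
  · obtain ⟨t, ht, ht1, et⟩ := exists_proj hA1.le
    have h3 : (![x0, μ, 0, t] : Fin 4 → ℝ) 3 < 1 := by simpa using ht1
    refine (F.pcU T hT).apply F.diag (cube_mem hx0 hμ zero_mem ht) h3
      ⟨hg, hq, hf, ?_, ?_⟩ ⟨?_, ?_, ?_, kapR_eq⟩ ?_ ?_ H m <;>
    simp [EnvD.map, Piece.chU, one', hgv _ h3 (by simp), hfv _ h3 (by simp) (by simp),
      val_add h3, val_neg, val_cst, val_var,
      Lit.lit, et]
    all_goals ring

/-- A point of the chart at `A ≤ 4 w²` is on a box or in the neighbourhood. -/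
lemma Family.orig_boxes (F : Family V W segs pcs) {v μ y : ℝ} (hv : v ∈ Set.Icc (0 : ℝ) endV)
    (hμ : μ ∈ Set.Icc (0 : ℝ) 1) (hy : y ∈ Set.Icc (0 : ℝ) 1) {P : Prop}
    (h : ∀ (B : OBox) (q : Fin 4 → ℝ), (∀ i, q i ∈ Set.Icc (0 : ℝ) 1) ∧ q 3 < 1 →
      (B.v0 : ℝ) + (B.v1 - B.v0) * q 0 = v → (B.m0 : ℝ) + (B.m1 - B.m0) * q 1 = μ →
      (B.y0 : ℝ) + (B.y1 - B.y0) * q 2 = y → Pos V W false B.env → P) : P := by
  have use : ∀ B : OBox, Pos V W false B.env → (B.v0 : ℝ) ≤ v → v ≤ B.v1 →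
      ((B.m0 : ℝ) ≤ μ ∧ μ ≤ B.m1 ∨ (B.m1 : ℝ) ≤ μ ∧ μ ≤ B.m0) → (B.y0 : ℝ) ≤ y → y ≤ B.y1 →
      P := by
    intro B hB a1 a2 hm c1 c2
    obtain ⟨x0, hx0, e0⟩ := exists_between (a1.trans a2) a1 a2
    obtain ⟨x2, hx2, e2⟩ := exists_between (c1.trans c2) c1 c2
    obtain ⟨x1, hx1, e1⟩ : ∃ t ∈ Set.Icc (0 : ℝ) 1, (B.m0 : ℝ) + (B.m1 - B.m0) * t = μ := by
      rcases hm with ⟨b1, b2⟩ | ⟨b1, b2⟩
      · exact exists_between (b1.trans b2) b1 b2
      · obtain ⟨t, ht, e⟩ := exists_between (b1.trans b2) b1 b2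
        exact ⟨1 - t, ⟨by linarith [ht.2], by linarith [ht.1]⟩, by linarith⟩
    exact h B ![x0, x1, x2, 0] ⟨cube_mem hx0 hx1 hx2 zero_mem, by simp⟩ (by simpa using e0)
      (by simpa using e1) (by simpa using e2) hB
  have hw := F.oW
  simp only [boxesW, List.forall_mem_cons] at hw
  obtain ⟨w0, w1, w2, w3, -⟩ := hw
  have cn : (nV : ℝ) = 1 / 512 ∧ (nM : ℝ) = 1 / 256 ∧ (nY : ℝ) = 1 / 8192 ∧
      (endV : ℝ) = 23 / 20 := by norm_num [nV, nM, nY, endV]
  obtain ⟨h1, h2, h3, h4⟩ := cn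
  obtain ⟨hv0, hv1⟩ := hv
  rcases le_or_gt v (7 / 8 - nV) with a | a
  · refine use _ w0 ?_ ?_ (Or.inl ⟨?_, ?_⟩) ?_ ?_ <;> push_cast <;>
      linarith [hμ.1, hμ.2, hy.1, hy.2]
  rcases le_or_gt (7 / 8 + (nV : ℝ)) v with b | b
  · refine use _ w1 ?_ ?_ (Or.inl ⟨?_, ?_⟩) ?_ ?_ <;> push_cast <;>
      linarith [hμ.1, hμ.2, hy.1, hy.2]
  rcases le_or_gt μ (1 - nM) with c | c
  · refine use _ w2 ?_ ?_ (Or.inl ⟨?_, ?_⟩) ?_ ?_ <;> push_cast <;>
      linarith [hμ.1, hμ.2, hy.1, hy.2]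
  rcases le_or_gt (nY : ℝ) y with d | d
  · refine use _ w3 ?_ ?_ (Or.inl ⟨?_, ?_⟩) ?_ ?_ <;> push_cast <;>
      linarith [hμ.1, hμ.2, hy.1, hy.2]
  · refine use (nearBox 2) F.near.pos ?_ ?_ (Or.inr ⟨?_, ?_⟩) ?_ ?_ <;> simp only [nearBox] <;>
      push_cast <;> linarith [hμ.1, hμ.2, hy.1, hy.2]

/-- Away from the curve. -/
lemma Family.orig_case (F : Family V W segs pcs) (hA : 0 ≤ A) (hwg : g ≤ f) (hg : 0 ≤ g)
    (hb : f + g ≤ endV) (hon : ∀ E : EnvD ℝ, OnSide false E f g) (H m : ℝ) :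
    rhs W f g A ≤ intForm V f g A A H m := by
  set v := f + g with hv
  set w := f - g with hw'
  have hw : 0 ≤ w := by linarith
  have hv0 : 0 ≤ v := by linarith
  have hs : 2 - f - g = 2 - v := by linarith
  have ce : (endV : ℝ) = 23 / 20 := by norm_num [endV]
  obtain ⟨x0, hx0, ex0⟩ := exists_frac hv0 hb
  obtain ⟨μ, hμ, eμ⟩ := exists_frac hw (show w ≤ v by linarith)
  have ev : (endV : ℝ) * x0 = v := by linarith
  rcases le_or_gt A (4 * w ^ 2) with hAw | hAw
  · rcases hw.eq_or_lt with h0 | h0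
    · have hfg : f = g := by linarith
      subst hfg
      obtain rfl : A = 0 := le_antisymm (by rw [← h0] at hAw; simpa using hAw) hA
      have h3 : (![x0, 0, 0, 0] : Fin 4 → ℝ) 3 < 1 := by simp
      refine F.oD.apply_diag F.diag (cube_mem hx0 zero_mem zero_mem zero_mem) h3
        ⟨?_, ?_, ?_, kapR_eq⟩ ?_ H m <;>
      simp [EnvD.map, origD, origS, origV, one', val_add h3, val_neg, val_mul, val_cst, val_var,
        Lit.lit, ev, hs]
      ring
    · obtain ⟨y, hy, ey⟩ := exists_frac hA hAw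
      refine F.orig_boxes (v := v) (μ := μ) ⟨hv0, hb⟩ hμ hy (fun B q hq hqv hqμ hqy hB => ?_)
      have h3 : q 3 < 1 := hq.2
      refine hB.apply F.diag hq.1 h3 (hon _) ⟨?_, ?_, ?_, kapR_eq⟩ ?_ ?_ H m <;>
      simp [EnvD.map, OBox.env, origAt, one', val_add h3, val_neg, val_mul, val_between h3,
        val_cst, Lit.lit, hqv, hqμ, hqy, hs]
      · rw [← hw', eμ]
      · ring
      · rw [← ey, ← eμ]; ring
      · exact mul_ne_zero_iff.1 (by rw [eμ]; exact h0.ne')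
  · have hA0 : 0 < A := lt_of_le_of_lt (by positivity) hAw
    have hq : 0 < √A := Real.sqrt_pos.2 hA0
    rcases le_or_gt A (v ^ 2) with hAv | hAv
    · obtain ⟨x2, hx2, ex2⟩ := exists_frac hq.le (show √A ≤ v from
        Real.sqrt_le_iff.2 ⟨hv0, hAv⟩)
      obtain ⟨x1, hx1, ex1⟩ := exists_frac hw
        (show w ≤ 1 / 2 * √A by
          have := (Real.le_sqrt (show 0 ≤ 2 * w by linarith) hA).2 (by linarith)
          linarith)
      have h3 : (![x0, x1, x2, 0] : Fin 4 → ℝ) 3 < 1 := by simp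
      refine F.oD.apply F.diag (cube_mem hx0 hx1 hx2 zero_mem) h3 (hon _)
        ⟨?_, ?_, ?_, kapR_eq⟩ ?_ ?_ H m <;>
      simp [EnvD.map, origD, origS, origV, one', val_add h3, val_neg, val_mul, val_cst, val_var,
        Lit.lit, ev, hs]
      · rw [← hw', ← ex1, ← ex2]; ring
      · ring
      · rw [← Real.sq_sqrt hA, ← ex2]
      · exact mul_ne_zero_iff.1 (by rw [ex2]; exact hq.ne')
    · rcases le_or_gt A 1 with hA1 | hA1
      · obtain ⟨t, ht, et⟩ := exists_frac hv0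
          (show v ≤ √A from (Real.le_sqrt hv0 hA).2 hAv.le)
        have h3 : (![t, μ, √A, 0] : Fin 4 → ℝ) 3 < 1 := by simp
        refine F.oX.apply F.diag (cube_mem ht hμ ⟨hq.le, Real.sqrt_le_one.2 hA1⟩ zero_mem) h3
          (hon _)
          ⟨?_, ?_, ?_, kapR_eq⟩ ?_ ?_ H m <;>
        simp [EnvD.map, origX, one', val_add h3, val_neg, val_mul, val_cst, val_var, Lit.lit,
          hs, et, Real.sq_sqrt hA]
        · rw [← hw', ← eμ, ← et]; ring
        · ring
        · exact hq.ne'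
      · obtain ⟨t, ht, ht1, et⟩ := exists_proj hA1.le
        have h3 : (![x0, μ, 0, t] : Fin 4 → ℝ) 3 < 1 := by simpa using ht1
        refine F.oU.apply F.diag (cube_mem hx0 hμ zero_mem ht) h3 (hon _)
          ⟨?_, ?_, ?_, kapR_eq⟩ ?_ ?_ H m <;>
        simp [EnvD.map, origU, origS, origV, one', val_add h3, val_neg, val_mul, val_cst, val_var,
          Lit.lit, ev, hs]
        · rw [← hw', eμ]
        · ring
        · exact et.symm

/-- The interior condition on the half, from a checked family. -/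
theorem Family.interior (F : Family V W segs pcs) (f g A : ℝ) (hB : InBox f g A) (hwg : g ≤ f)
    (hq : qLev f + qLev g ≤ 2) (H m : ℝ) : rhs W f g A ≤ intForm V f g A A H m := by
  obtain ⟨f0, f1, g0, g1, hA⟩ := hB
  have hsum := sum_le_two f0 f1 g0 g1 hq
  have hg : g ≤ 11 / 10 := by linarith
  rcases le_or_gt f (11 / 10) with hf | hf
  · have hon : ∀ E : EnvD ℝ, OnSide false E f g := fun E => ⟨hg, hq, hf⟩
    obtain ⟨b, hch, hb, hb0⟩ := F.chain
    rcases le_or_gt (2 - f - g) ((b : ℝ) * b) with hs | hs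
    · set r := √(2 - f - g) with hr
      have hr2 : 2 - f - g = r ^ 2 := (Real.sq_sqrt (by linarith)).symm
      obtain ⟨S, hS, ha, hb'⟩ := exists_seg (r := r) hch F.ne
        (by rw [Rat.cast_zero]; exact Real.sqrt_nonneg _)
        (Real.sqrt_le_iff.2 ⟨by exact_mod_cast hb0, by rw [sq]; exact hs⟩)
      exact F.seg_case hS hA ha hb' hr2 hwg (F.covers S hS f g r ha hb' hr2 g0 hwg hf hq) hon H m
    · have : ((17 / 20 : ℚ) : ℝ) ≤ b * b := by exact_mod_cast hb
      refine F.orig_case hA hwg g0 ?_ hon H m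
      norm_num [endV] at this ⊢
      linarith
  · have h1 : qLev (11 / 10) < qLev f := qLev_lt le_rfl hf f1
    rw [(qLev_low (le_refl (11 / 10 : ℝ))).1] at h1
    have h2 : g ^ 3 ≤ 669 / 1000 := by
      have := (qLev_low hg).1
      linarith
    obtain ⟨b, hch, hb, hb0⟩ := F.chainP
    have hgb : g ≤ b := by
      have hb' : ((669 / 1000 : ℚ) : ℝ) ≤ b * (b * b) := by exact_mod_cast hb
      have hb0' : (0 : ℝ) ≤ b := by exact_mod_cast hb0
      refine le_of_pow_le_pow_left₀ three_ne_zero hb0' ?_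
      push_cast at hb'
      linarith [show (b : ℝ) ^ 3 = b * (b * b) by ring]
    obtain ⟨T, hT, ha, hb'⟩ := exists_piece (r := g) hch F.neP (by simpa using g0) hgb
    obtain ⟨hL, -, hab⟩ := F.above T hT g ha hb'
    exact F.piece_case hT hA ha hb' hf.le (le_line hg f1 hL hab hq) hg hq H m

end

end Vale.Agent.P211.Cert.Interior
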