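import Vale.Agent.P211.Cert.Chart.Diag
import Vale.Agent.P211.Cert.Chart.Shape

/-!
P211, the interior form on a point blown up twice: with `H = r p H'`, `m = r m' / p` it is
`r ^ 8 p ^ 2 / 2` times a quadratic form in `(1, H', m')` whose entries are polynomials.
-/

namespace Vale.Agent.P211.Cert.Interior

open Chart

variable {α : Type} [Lit α] [Add α] [Mul α] [Neg α]

/-- `f + g`. -/
def vv (E : EnvD α) : α := Lit.lit 2 + -(E.r * E.r * E.s)

/-- `f - g`. -/
def ww (E : EnvD α) : α := E.r * E.p * E.z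

/-- The reaction at the level, as a difference over `r p`. -/
def ll (E : EnvD α) : α :=
  let v := vv E
  let w := ww E
  E.z * (Lit.lit 2 + -(v * (v * v + w * w)))

/-- The reaction at the level, as a sum over `r ^ 2`. -/
def lv (E : EnvD α) : α :=
  let v := vv E
  let w := ww E
  Lit.lit (1 / 4) * (v * E.s * (Lit.lit 4 + Lit.lit 2 * v + v * v) +
    -(E.p * E.z * (E.p * E.z) * (Lit.lit 6 * (v * v) + w * w)))

/-- `(2 - f³ - g³) / r²`. -/
def lam (E : EnvD α) : α :=
  let u := E.r * E.r * E.s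
  let pz := E.p * E.z
  Lit.lit (1 / 4) * (E.s * (Lit.lit 12 + Lit.lit (-6) * u + u * u)) +
    Lit.lit (-3 / 4) * (vv E * (pz * pz))

/-- The strength of the softening. -/
def softR : ℚ := 1384448 / 3246327

/-- The softened reaction: below the switch at any scaled point, past it where `r = p = 1`. -/
def react2 (hi : Bool) (E : EnvD α) : α × α :=
  let v := vv E
  let w := ww E
  bif hi then
    let f := Lit.lit (1 / 2) * (v + w)
    let g := Lit.lit (1 / 2) * (v + -w)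
    let L := Lit.lit 2 + -(qHi f) + -(g * g * g)
    (ll E + Lit.lit (-softR) * (L * L * (eHi f + -(g * g))),
      lv E + Lit.lit (-softR) * (L * L * (eHi f + g * g)))
  else
    let L := lam E
    let R2 := E.r * E.r
    (ll E + Lit.lit (-softR) * (R2 * R2 * (L * L) * (E.z * v)),
      lv E + Lit.lit (-softR / 2) * (R2 * (L * L) * (v * v + w * w)))

/-- The six entries `00, 0H, 0m, HH, Hm, mm` of the doubled form in `(1, H - L, m)`, `L` the scaled
difference of the reactions, less `W` times the target: they are linear in the reactions. -/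
def entries (V : Vec) (hi : Bool) (E : EnvD α) (W : α) : List α :=
  let l := (react2 hi E).1
  let lv := (react2 hi E).2
  let two := fun a : α => Lit.lit 2 * a
  let V0 := E.sV 5 1 V.Y0
  let V1 := E.sV 4 2 V.Y1
  let V2 := E.sV 4 0 V.Y2
  let A0 := two (E.sA 5 1 V.Y0)
  let A1 := two (E.sA 4 2 V.Y1)
  let A2 := two (E.sA 4 0 V.Y2)
  let p3 := E.p * E.p * (E.p * E.p * (E.p * E.p))
  let T := p3 * npw (E.y + E.z * E.z) 4 * (E.one * E.one)
  let h2 := Lit.lit (4 / 3) * V2 + A2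
  let m00 := (V0 + A0) * l + V1 * lv + E.sW 5 1 V.Y0 + Lit.lit 3 * (E.y * V2) + -(W * T)
  let m01 := A0 + E.sW 4 0 V.Y2 + (two V2 + A2) * l
  let m02 := E.sU 5 1 V.Y0 + E.sW 4 2 V.Y1 + A1 * l
  let m12 := A1 + E.sU 4 0 V.Y2
  [two m00, m01, m02, two h2, m12, two (E.sU 4 2 V.Y1)]

/-- `g` over the scaled point. -/
def gPt (E : EnvD α) : α :=
  Lit.lit (1 / 2) * (Lit.lit 2 + -(E.r * E.r * E.s) + -(E.r * E.p * E.z))

/-- Weights enough for the scaling. -/
def VecDiag (V : Vec) : Prop := DiagGe 5 1 V.Y0 ∧ DiagGe 4 2 V.Y1 ∧ DiagGe 4 0 V.Y2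

instance (V : Vec) : Decidable (VecDiag V) := by unfold VecDiag; infer_instance

noncomputable section

/-- The quadratic form of a list of six entries. -/
def form6 (l : List ℝ) (H m : ℝ) : ℝ :=
  l.getD 0 0 + 2 * l.getD 1 0 * H + 2 * l.getD 2 0 * m + l.getD 3 0 * H ^ 2 +
    2 * l.getD 4 0 * H * m + l.getD 5 0 * m ^ 2

/-- On a side of the switch and below the level the scaled reactions are the softened ones. -/
def OnSide (hi : Bool) (E : EnvD ℝ) (f g : ℝ) : Prop :=
  g ≤ 11 / 10 ∧ qLev f + qLev g ≤ 2 ∧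
    bif hi then 11 / 10 ≤ f ∧ E.r = 1 ∧ E.p = 1 else f ≤ 11 / 10

lemma softR_eq : (softR : ℝ) = cSoft := by norm_num [softR, cSoft]

lemma coords {E : EnvD ℝ} {f g A : ℝ} (hE : E.At f g A) :
    f = (2 - E.r ^ 2 * E.s + E.r * E.p * E.z) / 2 ∧
      g = (2 - E.r ^ 2 * E.s - E.r * E.p * E.z) / 2 :=
  ⟨by linear_combination hE.hw / 2 - hE.hs / 2, by linear_combination -hE.hw / 2 - hE.hs / 2⟩

lemma react2_eq {hi : Bool} {E : EnvD ℝ} {f g A : ℝ} (hE : E.At f g A) (h : OnSide hi E f g) :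
    reactT f g - reactT g f = E.r * E.p * (react2 hi E).1 ∧
      reactT f g + reactT g f = E.r ^ 2 * (react2 hi E).2 := by
  obtain ⟨hg, hq, h⟩ := h
  obtain ⟨hf', hg'⟩ := coords hE
  obtain ⟨q0, e0, -⟩ := level_lo hg
  simp only [reactT, max_eq_left (show (0 : ℝ) ≤ 2 - qLev g - qLev f by linarith),
    max_eq_left (show (0 : ℝ) ≤ 2 - qLev f - qLev g by linarith)]
  cases hi
  · obtain ⟨q1, e1, -⟩ := level_lo (show f ≤ 11 / 10 from h)
    simp only [q0, e0, q1, e1, react2, cond_false, ll, lv, lam, vv, ww, reactF, Lit.lit]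
    push_cast [softR_eq]
    subst hf' hg'
    constructor <;> ring
  · obtain ⟨hf, hr, hp⟩ := (show 11 / 10 ≤ f ∧ E.r = 1 ∧ E.p = 1 from h)
    obtain ⟨q1, e1, -⟩ := level_hi hf
    simp only [q0, e0, q1, e1, react2, cond_true, ll, lv, vv, ww, reactF, qHi, eHi,
      npw_real, Lit.lit]
    push_cast [softR_eq]
    subst hf' hg'
    rw [hr, hp]
    constructor <;> ring

theorem intForm_eq {V : Vec} (hV : VecDiag V) {hi : Bool} {E : EnvD ℝ} {f g A : ℝ}
    (hE : E.At f g A) (hp : E.p ≠ 0) (hs : OnSide hi E f g) (W : ℝ) (H m : ℝ) :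
    2 * (intForm V f g A A (E.r * E.p * (H + (react2 hi E).1)) (E.r * m / E.p) -
        W * (A + (f - g) ^ 2) ^ 4 * (1 + A) ^ 2) =
      E.r ^ 8 * E.p ^ 2 * form6 (entries V hi E W) H m := by
  obtain ⟨h0, h1, h2⟩ := hV
  obtain ⟨hl, hv⟩ := react2_eq hE hs
  have hT : (A + (f - g) ^ 2) ^ 4 * (1 + A) ^ 2 =
      E.r ^ 8 * E.p ^ 8 * ((E.y + E.z ^ 2) ^ 4 * E.one ^ 2) := by
    rw [hE.hA, hE.hw, EnvD.one_real]; ring
  set l := (react2 hi E).1 with hl'
  set lw := (react2 hi E).2 with hv'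
  set L := E.r * E.p * l with hL
  set H' := E.r * E.p * (H + l) with hH
  set m' := E.r * m / E.p with hm
  have key : intForm V f g A A H' m' =
      scV V.Y0 f g A * L + scV V.Y1 f g A * (E.r ^ 2 * lw) +
      scV V.Y2 f g A * (3 * A - 2 / 3 * L ^ 2 - 2 / 3 * H' * L + 4 / 3 * H' ^ 2) +
      A * scW V.Y0 f g A + (A * scW V.Y2 f g A) * (H' - L) +
      (A * scA V.Y0 f g A) * (2 * H') + (A * scA V.Y2 f g A) * (2 * H' ^ 2 - 2 * H' * L) +
      (A * scU V.Y0 f g A + A * scW V.Y1 f g A) * m' + (A * scA V.Y1 f g A) * (2 * H' * m') +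
      (A * scU V.Y2 f g A) * (H' * m' - m' * L) + (A * scU V.Y1 f g A) * m' ^ 2 := by
    simp only [intForm, bodyForm, hl, hv]; ring
  rw [key, mul_assoc W, hT, hE.scV_eq h0, hE.scV_eq h1, hE.scV_eq h2, hE.scW_eq h0,
    hE.scW_eq h1, hE.scW_eq h2, hE.scA_eq h0, hE.scA_eq h1, hE.scA_eq h2, hE.scU_eq h0,
    hE.scU_eq h1, hE.scU_eq h2, hE.hA, hL, hH, hm]
  simp only [form6, entries, ← hl', ← hv', List.getD_cons_zero, List.getD_cons_succ, Lit.lit,
    npw_real, Rat.cast_div, Rat.cast_ofNat]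
  field_simp
  ring

lemma gPt_eq {E : EnvD ℝ} {f g A : ℝ} (hE : E.At f g A) : gPt E = g := by
  simp only [gPt, Lit.lit]
  push_cast
  linear_combination (hE.hw / 2 + hE.hs / 2)

end

end Vale.Agent.P211.Cert.Interior
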