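import Vale.Agent.P211.Cert.Interior.Charts

/-!
P211, the interior family at the equilibrium `(f, g, A) = (7 / 8, 0, 0)`, where the form has an
exact zero: on a small box the form is the sum of its increment in `A`, its increment in `g` and
its value on the line `g = A = 0`; each of the increments absorbs a multiple of `H²`, and on the
line the determinant is a square times a positive Bernstein sum.
-/

namespace Vale.Agent.P211.Cert.Interior

open Chart
open Vale.Agent.P098.Cert6.Kron (Poly Deg RootPar parOK evalR rootFace degs)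

/-- Six expressions, finished for a cell. -/
def Cell.polysOf (c : Cell) (l : List HP) : List Poly :=
  [c.poly 0 0 (l.getD 0 none), c.poly 0 1 (l.getD 1 none), c.poly 0 2 (l.getD 2 none),
    c.poly 1 1 (l.getD 3 none), c.poly 1 2 (l.getD 4 none), c.poly 2 2 (l.getD 5 none)]

/-- The test of six expressions in a cell. -/
def Cell.okOf (c : Cell) (l : List HP) : Bool :=
  let t := fun (i j : Fin 3) (k : ℕ) =>
    finishOK c.q (c.d.1, c.d.2.1, c.d.2.2.1, c.deg i j) (l.getD k none)
  t 0 0 0 && t 0 1 1 && t 0 2 2 && t 1 1 3 && t 1 2 4 && t 2 2 5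

/-- The chart around the origin at `v = f + g`, `μ = (f - g) / (f + g)`, `A = 4 y (f - g)²`. -/
def origAt (v μ y : HP) : EnvD HP := ⟨one', μ * v, one', Lit.lit 2 + -v, Lit.lit 4 * y, kapR⟩

/-- A box of that chart. -/
structure OBox where
  v0 : ℚ
  v1 : ℚ
  m0 : ℚ
  m1 : ℚ
  y0 : ℚ
  y1 : ℚ

/-- The chart on a box. -/
def OBox.env (B : OBox) : EnvD HP :=
  origAt (between B.v0 B.v1 0) (between B.m0 B.m1 1) (between B.y0 B.y1 2)

/-- The half width of the neighbourhood in `f + g`. -/
def nV : ℚ := 1 / 512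

/-- Its width in `μ`. -/
def nM : ℚ := 1 / 256

/-- Its width in `y`. -/
def nY : ℚ := 1 / 8192

/-- The multiple of `H²` lent to the increment in `y`, per unit of `y`. -/
def kY : ℚ := 30000000000

/-- The multiple of `H²` lent to the increment in `μ`, per unit of `1 - μ`. -/
def kM : ℚ := 500000000

/-- Below, above, below and above the neighbourhood. -/
def boxesW : List OBox :=
  [⟨0, 7 / 8 - nV, 0, 1, 0, 1⟩, ⟨7 / 8 + nV, endV, 0, 1, 0, 1⟩,
    ⟨7 / 8 - nV, 7 / 8 + nV, 0, 1 - nM, 0, 1⟩, ⟨7 / 8 - nV, 7 / 8 + nV, 1 - nM, 1, nY, 1⟩]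

/-- The neighbourhood, down to the line in two steps. -/
def nearBox : ℕ → OBox
  | 0 => ⟨7 / 8 - nV, 7 / 8 + nV, 1, 1, 0, 0⟩
  | 1 => ⟨7 / 8 - nV, 7 / 8 + nV, 1, 1 - nM, 0, 0⟩
  | _ => ⟨7 / 8 - nV, 7 / 8 + nV, 1, 1 - nM, 0, nY⟩

/-- A difference of forms, raised by `k H²`. -/
def lift {α : Type} [Add α] [Neg α] (z : α) (a b : List α) (k : α) : List α :=
  [a.getD 0 z + -(b.getD 0 z), a.getD 1 z + -(b.getD 1 z), a.getD 2 z + -(b.getD 2 z),
    a.getD 3 z + -(b.getD 3 z) + k, a.getD 4 z + -(b.getD 4 z), a.getD 5 z + -(b.getD 5 z)]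

/-- The entries on a step. -/
def nearList (V : Vec) (W : Wgt) (i : ℕ) : List HP := chartList V W false (nearBox i).env

/-- The increment in `y`. -/
def incY (V : Vec) (W : Wgt) : List HP :=
  lift none (nearList V W 2) (nearList V W 1) (Lit.lit (kY * nY) * var 2)

/-- The increment in `μ`. -/
def incM (V : Vec) (W : Wgt) : List HP :=
  lift none (nearList V W 1) (nearList V W 0) (Lit.lit (kM * nM) * var 1)

/-- A Bernstein sum, the binomials inside the coefficients. -/
def bernS {α : Type} [Lit α] [Add α] [Mul α] : List ℚ → α → α → α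
  | [], _, _ => Lit.lit 0
  | b :: l, t, u => Lit.lit b * npw u l.length + t * bernS l t u

/-- The entry `HH` on the line, less what was lent. -/
def lineH (V : Vec) (W : Wgt) : HP :=
  (nearList V W 0).getD 3 none + Lit.lit (-(kY * nY + kM * nM))

/-- The determinant on the line less a square times a Bernstein sum: zero. -/
def lineD (V : Vec) (W : Wgt) (Q : List ℚ) : HP :=
  let l := nearList V W 0
  let x := var 0 + var 0 + Lit.lit (-1)
  l.getD 0 none * lineH V W + -(l.getD 1 none * l.getD 1 none) +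
    -(x * x * bernS Q (var 0) (Lit.lit 1 + -var 0))

/-- The entries of the row of the last unknown on the line. -/
def lineRow (V : Vec) (W : Wgt) : Bool :=
  let l := nearList V W 0
  (l.getD 2 none).isNone && (l.getD 4 none).isNone && (l.getD 5 none).isNone

noncomputable section

/-- A good root for six expressions gives the sign of their form. -/
theorem Cell.nonneg_of {c : Cell} {l : List HP} {R : RootPar}
    {fs : List Vale.Agent.P098.Check6.Face}
    (hpar : parOK R c.d = true) (hok : c.okOf l = true)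
    (hall : Check.rootsOK R c.d (c.polysOf l) fs = true)
    (hgood : Check.Good ⟨false, false, false⟩ (Check.rootCfg R c.d)
      (Check.rootSt R c.d (c.polysOf l) fs))
    {p : Fin 4 → ℝ} (hp : ∀ i, p i ∈ Set.Icc (0 : ℝ) 1) (h3 : p 3 < 1) (H m : ℝ) :
    0 ≤ form6 (l.map (val p)) H m := by
  set y : ℝ := 1 - p 3 with hy
  have hy0 : 0 < y := by linarith
  simp only [Cell.okOf, Bool.and_eq_true] at hok
  obtain ⟨⟨⟨⟨⟨k00, k01⟩, k02⟩, k11⟩, k12⟩, k22⟩ := hok
  have e : ∀ (i j : Fin 3) (k : ℕ),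
      finishOK c.q (c.d.1, c.d.2.1, c.d.2.2.1, c.deg i j) (l.getD k none) = true →
      evalR p (c.poly i j (l.getD k none)) =
        (c.q + 1 : ℕ) * (y ^ c.n0 * y ^ c.rows.get i * y ^ c.rows.get j) *
          (l.map (val p)).getD k 0 := fun i j k hk => by
    rw [Cell.poly, evalR_pad1, evalR_finish h3 hk, ← hy, Cell.deg, pow_add, pow_add,
      show (0 : ℝ) = val p (none : HP) from rfl, List.getD_map]
  have key := Check.nonneg_of_good hpar (le_of_eq rfl) hall hgood p hp
    (fun i h6 hi => absurd hi (by simp [Cell.polysOf] at *; omega))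
    ![1 / y ^ c.rows.a0, H / y ^ c.rows.a1, m / y ^ c.rows.a2] (fun i hi => by
      fin_cases i <;> simp [Check.V3.get] at hi)
  simp only [Vale.Agent.P098.Check6.quadForm, Fin.sum_univ_three, show Check.tri 0 0 = 0 from rfl,
    show Check.tri 0 1 = 1 from rfl, show Check.tri 0 2 = 2 from rfl,
    show Check.tri 1 0 = 1 from rfl, show Check.tri 1 1 = 3 from rfl,
    show Check.tri 1 2 = 4 from rfl, show Check.tri 2 0 = 2 from rfl,
    show Check.tri 2 1 = 4 from rfl, show Check.tri 2 2 = 5 from rfl,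
    Cell.polysOf, List.getD_cons_zero, List.getD_cons_succ, Matrix.cons_val_zero,
    Matrix.cons_val_one, Matrix.cons_val] at key
  simp only [e _ _ _ k00, e _ _ _ k01, e _ _ _ k02, e _ _ _ k11, e _ _ _ k12, e _ _ _ k22,
    Check.V3.get] at key
  have hc : (0 : ℝ) < (c.q + 1 : ℕ) * y ^ c.n0 := by positivity
  refine nonneg_of_mul_nonneg_right (key.trans_eq ?_) hc
  simp only [form6]
  field_simp
  ring

/-- An expression with vanishing tensor is zero. -/
theorem val_eq_zero {R : RootPar} {q : ℕ} {d : Deg} {a : HP} (hd : d.2.1 = 0)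
    (hpar : parOK R d = true) (hok : finishOK q d a = true)
    (hroot : Vale.Agent.P098.Cert6.Kron.rootOK R d (finish q d a) = true)
    (hface : rootFace R d (finish q d a) 1 false = true)
    {p : Fin 4 → ℝ} (h3 : p 3 < 1) : val p a = 0 := by
  obtain ⟨b, -, hv, hf⟩ := Vale.Agent.P098.Cert6.Kron.root_rep hpar hroot
  have h0 : evalR p (finish q d a) = 0 := by
    have h : Vale.Agent.P098.Check6.evalB (degs d) [p 0, p 1, p 2, p 3] b = 0 := by
      refine (Vale.Agent.P098.Check6.evalB_congr _ _ fun r hr => ?_).trans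
        (Vale.Agent.P098.Check6.evalB_zero _ _)
      refine hf 1 false (by norm_num) hface r hr ?_
      obtain ⟨i, r', rfl, -, j, r'', rfl, hj, -⟩ := hr
      simp [Vale.Agent.P098.Check6.OnFace, hd] at hj ⊢
      exact hj
    rw [hv] at h
    exact (mul_eq_zero.1 h).resolve_left (Check.kappa_pos hpar).ne'
  rw [evalR_finish h3 hok] at h0
  have hy : (0 : ℝ) < 1 - p 3 := by linarith
  exact (mul_eq_zero.1 h0).resolve_left (by positivity)

lemma bernS_nonneg {t u : ℝ} (ht : 0 ≤ t) (hu : 0 ≤ u) :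
    ∀ {l : List ℚ}, (∀ b ∈ l, 0 ≤ b) → 0 ≤ bernS l t u
  | [], _ => by simp [bernS, Lit.lit]
  | b :: l, h => by
    have hb : (0 : ℝ) ≤ b := by exact_mod_cast h b List.mem_cons_self
    have := bernS_nonneg ht hu fun c hc => h c (List.mem_cons_of_mem _ hc)
    simp only [bernS, Lit.lit, npw_real]
    positivity

lemma val_bernS {p : Fin 4 → ℝ} (h3 : p 3 < 1) :
    ∀ (l : List ℚ) (t u : HP), val p (bernS l t u) = bernS l (val p t) (val p u)
  | [], _, _ => by simp [bernS, val_lit]
  | b :: l, t, u => by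
    simp only [bernS, val_add h3, val_mul, val_lit, val_npw, val_bernS h3 l, npw_real]

/-- The three facts on the neighbourhood. -/
structure Near (V : Vec) (W : Wgt) : Prop where
  incY : ∀ p : Fin 4 → ℝ, (∀ i, p i ∈ Set.Icc (0 : ℝ) 1) → p 3 < 1 → ∀ H m : ℝ,
    0 ≤ form6 ((incY V W).map (val p)) H m
  incM : ∀ p : Fin 4 → ℝ, (∀ i, p i ∈ Set.Icc (0 : ℝ) 1) → p 3 < 1 → ∀ H m : ℝ,
    0 ≤ form6 ((incM V W).map (val p)) H m
  lineH : ∀ p : Fin 4 → ℝ, (∀ i, p i ∈ Set.Icc (0 : ℝ) 1) → p 3 < 1 → 0 < val p (lineH V W)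
  line : lineRow V W = true ∧ ∃ Q : List ℚ, (∀ b ∈ Q, 0 ≤ b) ∧
    ∀ p : Fin 4 → ℝ, p 3 < 1 → val p (lineD V W Q) = 0

lemma getD_map_val (p : Fin 4 → ℝ) (l : List HP) (k : ℕ) :
    (l.map (val p)).getD k 0 = val p (l.getD k none) := by
  rw [show (0 : ℝ) = val p (none : HP) from rfl, List.getD_map]

/-- The neighbourhood is positive. -/
theorem Near.pos {V : Vec} {W : Wgt} (N : Near V W) : Pos V W false (nearBox 2).env := by
  intro p hp h3 H m
  have hY := N.incY p hp h3 H m
  have hM := N.incM p hp h3 H m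
  have hh := N.lineH p hp h3
  obtain ⟨hrow, Q, hQ, hD⟩ := N.line
  have hd := hD p h3
  simp only [lineRow, Bool.and_eq_true, Option.isNone_iff_eq_none] at hrow
  obtain ⟨⟨r2, r4⟩, r5⟩ := hrow
  have hs := bernS_nonneg (hp 0).1 (show 0 ≤ 1 - p 0 by linarith [(hp 0).2]) hQ
  simp only [lineD, Interior.lineH, val_add h3, val_mul, val_neg, val_cst, val_var, val_bernS h3,
    Fin.reduceEq, if_false, Lit.lit, Rat.cast_neg, Rat.cast_one, Rat.cast_add, Rat.cast_mul,
    ← sub_eq_add_neg] at hd hh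
  rw [← map_entries (isLitHom_val h3) V (nearBox 2).env W false]
  change 0 ≤ form6 ((nearList V W 2).map (val p)) H m
  simp only [Interior.incY, Interior.incM, lift, List.map_cons, List.map_nil, form6,
    List.getD_cons_zero, List.getD_cons_succ, val_add h3, val_neg, val_mul, val_cst, val_var,
    Fin.reduceEq, if_false, Lit.lit, Rat.cast_mul, r2, r4, r5,
    show val p (none : HP) = 0 from rfl] at hY hM
  simp only [form6, getD_map_val]
  set a := val p ((nearList V W 0).getD 0 none)
  set b := val p ((nearList V W 0).getD 1 none)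
  set c := val p ((nearList V W 0).getD 3 none)
  set k : ℝ := (kY : ℝ) * nY + kM * nM with hk
  have hdet : 0 ≤ a * (c - k) - b * b := by
    have : 0 ≤ (p 0 + p 0 - 1) * (p 0 + p 0 - 1) * bernS Q (p 0) (1 - p 0) :=
      mul_nonneg (mul_self_nonneg _) hs
    linarith
  have key : 0 ≤ a + 2 * b * H + (c - k) * H ^ 2 := by
    refine nonneg_of_mul_nonneg_right ?_ hh
    calc 0 ≤ ((c - k) * H + b) ^ 2 + (a * (c - k) - b * b) := by positivity
      _ = _ := by ring
  have hY1 : (kY : ℝ) * nY * p 2 * H ^ 2 ≤ kY * nY * H ^ 2 := by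
    refine mul_le_mul_of_nonneg_right (mul_le_of_le_one_right ?_ (hp 2).2) (sq_nonneg H)
    norm_num [kY, nY]
  have hM1 : (kM : ℝ) * nM * p 1 * H ^ 2 ≤ kM * nM * H ^ 2 := by
    refine mul_le_mul_of_nonneg_right (mul_le_of_le_one_right ?_ (hp 1).2) (sq_nonneg H)
    norm_num [kM, nM]
  nlinarith

end

end Vale.Agent.P211.Cert.Interior
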