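import Vale.Agent.P211.Cert.Interior.Target
import Vale.Agent.P211.Cert.Interior.Data.Above
import Vale.Agent.P211.Cert.Interior.Data.Line
import Vale.Agent.P211.Cert.Interior.Data.S0W
import Vale.Agent.P211.Cert.Interior.Data.S0D
import Vale.Agent.P211.Cert.Interior.Data.S0X
import Vale.Agent.P211.Cert.Interior.Data.S0A
import Vale.Agent.P211.Cert.Interior.Data.S0U
import Vale.Agent.P211.Cert.Interior.Data.S1W
import Vale.Agent.P211.Cert.Interior.Data.S1D
import Vale.Agent.P211.Cert.Interior.Data.S1X
import Vale.Agent.P211.Cert.Interior.Data.S1U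
import Vale.Agent.P211.Cert.Interior.Data.S2W
import Vale.Agent.P211.Cert.Interior.Data.S2D
import Vale.Agent.P211.Cert.Interior.Data.S2X
import Vale.Agent.P211.Cert.Interior.Data.S2U
import Vale.Agent.P211.Cert.Interior.Data.S3W
import Vale.Agent.P211.Cert.Interior.Data.S3D
import Vale.Agent.P211.Cert.Interior.Data.S3X
import Vale.Agent.P211.Cert.Interior.Data.S3U
import Vale.Agent.P211.Cert.Interior.Data.S4W
import Vale.Agent.P211.Cert.Interior.Data.S4D
import Vale.Agent.P211.Cert.Interior.Data.S4X
import Vale.Agent.P211.Cert.Interior.Data.S4U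
import Vale.Agent.P211.Cert.Interior.Data.S5W
import Vale.Agent.P211.Cert.Interior.Data.S5D
import Vale.Agent.P211.Cert.Interior.Data.S5X
import Vale.Agent.P211.Cert.Interior.Data.S5U
import Vale.Agent.P211.Cert.Interior.Data.S6W
import Vale.Agent.P211.Cert.Interior.Data.S6D
import Vale.Agent.P211.Cert.Interior.Data.S6X
import Vale.Agent.P211.Cert.Interior.Data.S6U
import Vale.Agent.P211.Cert.Interior.Data.S7W
import Vale.Agent.P211.Cert.Interior.Data.S7D
import Vale.Agent.P211.Cert.Interior.Data.S7X
import Vale.Agent.P211.Cert.Interior.Data.S7U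
import Vale.Agent.P211.Cert.Interior.Data.T0A
import Vale.Agent.P211.Cert.Interior.Data.T0U
import Vale.Agent.P211.Cert.Interior.Data.T1A
import Vale.Agent.P211.Cert.Interior.Data.T1U
import Vale.Agent.P211.Cert.Interior.Data.T2A
import Vale.Agent.P211.Cert.Interior.Data.T2U
import Vale.Agent.P211.Cert.Interior.Data.T3A
import Vale.Agent.P211.Cert.Interior.Data.T3U
import Vale.Agent.P211.Cert.Interior.Data.T4A
import Vale.Agent.P211.Cert.Interior.Data.T4U
import Vale.Agent.P211.Cert.Interior.Data.T5A
import Vale.Agent.P211.Cert.Interior.Data.T5U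
import Vale.Agent.P211.Cert.Interior.Data.T6A
import Vale.Agent.P211.Cert.Interior.Data.T6U
import Vale.Agent.P211.Cert.Interior.Data.T7A
import Vale.Agent.P211.Cert.Interior.Data.T7U
import Vale.Agent.P211.Cert.Interior.Data.T8A
import Vale.Agent.P211.Cert.Interior.Data.T8U
import Vale.Agent.P211.Cert.Interior.Data.T9A
import Vale.Agent.P211.Cert.Interior.Data.T9U
import Vale.Agent.P211.Cert.Interior.Data.T10A
import Vale.Agent.P211.Cert.Interior.Data.T10U
import Vale.Agent.P211.Cert.Interior.Data.T11A
import Vale.Agent.P211.Cert.Interior.Data.T11U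
import Vale.Agent.P211.Cert.Interior.Data.T12A
import Vale.Agent.P211.Cert.Interior.Data.T12U
import Vale.Agent.P211.Cert.Interior.Data.T13A
import Vale.Agent.P211.Cert.Interior.Data.T13U
import Vale.Agent.P211.Cert.Interior.Data.T14A
import Vale.Agent.P211.Cert.Interior.Data.T14U
import Vale.Agent.P211.Cert.Interior.Data.OD
import Vale.Agent.P211.Cert.Interior.Data.OX
import Vale.Agent.P211.Cert.Interior.Data.OU
import Vale.Agent.P211.Cert.Interior.Data.OW0
import Vale.Agent.P211.Cert.Interior.Data.OW1
import Vale.Agent.P211.Cert.Interior.Data.OW2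
import Vale.Agent.P211.Cert.Interior.Data.OW3
import Vale.Agent.P211.Cert.Interior.Data.NY
import Vale.Agent.P211.Cert.Interior.Data.NM

/-!
P211, the interior condition of the certificate vector, from its cells (generated).
-/

namespace Vale.Agent.P211.Cert.Interior

open Data

/-- The checked family. -/
theorem familyV : Family vecV wgtV segsV piecesV where
  diag := by decide +kernel
  chain := ⟨(segV 7).b, by decide +kernel⟩
  chainP := ⟨(pieceV 14).b, by decide +kernel⟩
  ne := List.cons_ne_nil _ _
  neP := List.cons_ne_nil _ _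
  sign := by decide +kernel
  signP := by decide +kernel
  covers := coversV
  above := aboveV
  segW := by
    simp only [segsV, List.forall_mem_cons]
    exact ⟨posS0W, posS1W, posS2W, posS3W, posS4W, posS5W,
      posS6W, posS7W, by simp⟩
  segD := by
    simp only [segsV, List.forall_mem_cons]
    exact ⟨posS0D, posS1D, posS2D, posS3D, posS4D, posS5D,
      posS6D, posS7D, by simp⟩
  segX := by
    simp only [segsV, List.forall_mem_cons]
    exact ⟨posS0X, posS1X, posS2X, posS3X, posS4X, posS5X,
      posS6X, posS7X, by simp⟩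
  segU := by
    simp only [segsV, List.forall_mem_cons]
    exact ⟨posS0U, posS1U, posS2U, posS3U, posS4U, posS5U,
      posS6U, posS7U, by simp⟩
  segA := by
    simp only [segsV, List.forall_mem_cons]
    exact ⟨fun _ => posS0A, fun h => absurd h (by norm_num), fun h => absurd h (by norm_num), fun h => absurd h (by norm_num), fun h => absurd h (by norm_num), fun h => absurd h (by norm_num),
      fun h => absurd h (by norm_num), fun h => absurd h (by norm_num), by simp⟩
  pcA := by
    simp only [piecesV, List.forall_mem_cons]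
    exact ⟨posT0A, posT1A, posT2A, posT3A, posT4A, posT5A,
      posT6A, posT7A, posT8A, posT9A, posT10A, posT11A,
      posT12A, posT13A, posT14A, by simp⟩
  pcU := by
    simp only [piecesV, List.forall_mem_cons]
    exact ⟨posT0U, posT1U, posT2U, posT3U, posT4U, posT5U,
      posT6U, posT7U, posT8U, posT9U, posT10U, posT11U,
      posT12U, posT13U, posT14U, by simp⟩
  oW := by
    simp only [boxesW, List.forall_mem_cons]
    exact ⟨posOW0, posOW1, posOW2, posOW3, by simp⟩
  near := ⟨posNY, posNM, fun _ hp h3 => lineHpos hp h3, lineV⟩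
  oD := posOD
  oX := posOX
  oU := posOU

/-- The interior condition of the vector. -/
theorem interior_vecV (f g A : ℝ) (hB : InBox f g A) (hwg : g ≤ f) (hq : qLev f + qLev g ≤ 2)
    (H m : ℝ) : target rhoV f g A ≤ intForm vecV f g A A H m :=
  familyV.interior_target (by decide +kernel) f g A hB hwg hq H m

end Vale.Agent.P211.Cert.Interior
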