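import Vale.Agent.P211.Cert.Interior.Cover
import Vale.Agent.P211.Cert.Vector

/-!
P211, the weight of the interior family lies above the shared one.
-/

namespace Vale.Agent.P211.Cert.Interior

noncomputable section

/-- A checked family gives the interior condition with the shared weight. -/
theorem Family.interior_target {V : Vec} {W : Wgt} {segs : List Seg} {pcs : List Piece}
    (F : Family V W segs pcs) (he : 1 ≤ W.eps) (f g A : ℝ) (hB : InBox f g A) (hwg : g ≤ f)
    (hq : qLev f + qLev g ≤ 2) (H m : ℝ) : target rhoV f g A ≤ intForm V f g A A H m := by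
  refine le_trans ?_ (F.interior f g A hB hwg hq H m)
  obtain ⟨_, _, hg, _, hA⟩ := hB
  have he' : (1 : ℝ) ≤ W.eps := by exact_mod_cast he
  have hk : 0 ≤ (5 / 3 * g) ^ W.k := by positivity
  rw [target, rhs, mul_assoc]
  refine mul_le_mul_of_nonneg_right ?_ (by positivity)
  rcases le_or_gt g (3 / 5) with h | h
  · rw [rhoV_band (Or.inr h)]
    exact mul_nonneg (by linarith) hk
  · calc rhoV f g ≤ 1 := (rhoV_mem f g).2
      _ ≤ W.eps * (5 / 3 * g) ^ W.k :=
        one_le_mul_of_one_le_of_one_le he' (one_le_pow₀ (by linarith))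

end

end Vale.Agent.P211.Cert.Interior
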