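import Vale.Agent.P211.Cert.Interior.Charts
import Vale.Agent.P098.Check6.Literal

/-!
P211, helpers for the generated data of the interior family: leaves from twelve numbers, and the
chart conclusion from a literal root.
-/

namespace Vale.Agent.P211.Cert.Interior

open Chart
open Vale.Agent.P098.Check6 (eqList Face St)
open Vale.Agent.P098.Cert6.Kron (RootPar parOK)

/-- A leaf from the congruence by rows and the weights: the inverse is the adjugate. -/
def lf (a b c d e f g h i : ℤ) (u v w : ℕ) : Check.Leaf :=
  .psd ⟨⟨⟨a, b, c⟩, ⟨d, e, f⟩, ⟨g, h, i⟩⟩,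
    ⟨⟨e * i - f * h, c * h - b * i, b * f - c * e⟩, ⟨f * g - d * i, a * i - c * g, c * d - a * f⟩,
      ⟨d * h - e * g, b * g - a * h, a * e - b * d⟩⟩,
    (a * (e * i - f * h) - b * (d * i - f * g) + c * (d * h - e * g)).toNat, ⟨u, v, w⟩⟩

/-- No cone. -/
def noCone : Check.V3 Bool := ⟨false, false, false⟩

/-- The row of the last unknown vanishes where `A = 0`. -/
def faceY : List Face := [⟨2, false, ⟨false, false, true, false, false, false⟩⟩]

noncomputable section

/-- A chart is positive when the literal root of its cell is good. -/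
theorem pos_of_literal {c : Cell} {e : EnvD HP} {R : RootPar} {fs : List Face} {lit : List ℕ}
    {V : Vec} {W : Wgt} (he : c.env = e) (hpar : parOK R c.d = true) (hok : c.ok V W = true)
    (hall : Check.rootsOK R c.d (c.polys V W) fs = true)
    (hlit : eqList (Check.rootSt R c.d (c.polys V W) fs).Ys lit = true)
    (hgood : Check.Good noCone (Check.rootCfg R c.d) ⟨lit, 1, fs⟩) : Pos V W c.hi e :=
  pos_of_good he rfl hpar hok hall (Check.good_of_literal hlit hgood)

end

end Vale.Agent.P211.Cert.Interior
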